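import Mathlib

open MeasureTheory Filter Topology Finset

namespace Vale.Agent.P102

variable {Ω : Type*} [MeasurableSpace Ω] {μ : Measure Ω} [IsProbabilityMeasure μ] {T : Ω → Ω}

lemma corr_shift (hT : MeasurePreserving T μ μ) {A : Set Ω} (hA : MeasurableSet A) {g h : ℕ}
    (hgh : g ≤ h) :
    μ.real (T^[g] ⁻¹' A ∩ T^[h] ⁻¹' A) = μ.real (A ∩ T^[h - g] ⁻¹' A) := by
  have e : T^[g] ⁻¹' A ∩ T^[h] ⁻¹' A = T^[g] ⁻¹' (A ∩ T^[h - g] ⁻¹' A) := by
    rw [Set.preimage_inter, ← Set.preimage_comp, ← Function.iterate_add, Nat.sub_add_cancel hgh]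
  rw [e, Measure.real, Measure.real, (hT.iterate g).measure_preimage]
  exact (hA.inter ((hT.iterate _).measurable hA)).nullMeasurableSet

/-- A separated family of times that all correlate with one set is bounded in size. -/
lemma sep_card_le (hT : MeasurePreserving T μ μ) {A E : Set Ω} (hA : MeasurableSet A)
    (hE : MeasurableSet E) {δ : ℝ} (hδ : 0 < δ) {L : ℕ}
    (hL : ∀ d ≥ L, |μ.real (A ∩ T^[d] ⁻¹' A) - μ.real A ^ 2| ≤ δ ^ 2 / 2)
    (S : Finset ℕ) (hsep : ∀ g ∈ S, ∀ h ∈ S, g < h → g + L ≤ h)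
    (hbad : ∀ g ∈ S, δ < |μ.real (E ∩ T^[g] ⁻¹' A) - μ.real E * μ.real A|) :
    (S.card : ℝ) ≤ 2 / δ ^ 2 := by
  classical
  rcases S.eq_empty_or_nonempty with rfl | hS
  · simp only [card_empty, Nat.cast_zero]
    positivity
  set a := μ.real A
  have hpre : ∀ g, MeasurableSet (T^[g] ⁻¹' A) := fun g => (hT.iterate g).measurable hA
  let f : ℕ → Ω → ℝ := fun g x => (T^[g] ⁻¹' A).indicator (fun _ => (1 : ℝ)) x - a
  have hmg : ∀ g, μ.real (T^[g] ⁻¹' A) = a := fun g => by
    simp only [a, Measure.real, (hT.iterate g).measure_preimage hA.nullMeasurableSet]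
  have hind : ∀ s : Set Ω, MeasurableSet s →
      Integrable (s.indicator fun _ : Ω => (1 : ℝ)) μ :=
    fun s hs => (integrable_const 1).indicator hs
  have hint : ∀ s : Set Ω, MeasurableSet s →
      ∫ x, s.indicator (fun _ => (1 : ℝ)) x ∂μ = μ.real s := fun s hs => by
    rw [integral_indicator_const _ hs]; simp
  have hmul : ∀ s t : Set Ω, ∀ x, s.indicator (fun _ => (1 : ℝ)) x * t.indicator (fun _ => 1) x
      = (s ∩ t).indicator (fun _ => 1) x := fun s t x => by
    by_cases hs : x ∈ s <;> by_cases ht : x ∈ t <;> simp [hs, ht]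
  have hEf : ∀ g, Integrable (fun x => E.indicator (fun _ => (1 : ℝ)) x * f g x) μ := fun g => by
    simp only [f, mul_sub, hmul]
    exact (hind _ (hE.inter (hpre g))).sub ((hind _ hE).mul_const a)
  have hEval : ∀ g, ∫ x, E.indicator (fun _ => (1 : ℝ)) x * f g x ∂μ
      = μ.real (E ∩ T^[g] ⁻¹' A) - μ.real E * a := fun g => by
    simp only [f, mul_sub, hmul]
    rw [integral_sub (hind _ (hE.inter (hpre g))) ((hind _ hE).mul_const a),
      integral_mul_const, hint _ (hE.inter (hpre g)), hint _ hE]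
  have hprod : ∀ g h x, f g x * f h x
      = ((T^[g] ⁻¹' A ∩ T^[h] ⁻¹' A).indicator (fun _ => (1 : ℝ)) x
        - a * (T^[g] ⁻¹' A).indicator (fun _ => 1) x)
        - (a * (T^[h] ⁻¹' A).indicator (fun _ => 1) x - a ^ 2) := fun g h x => by
    simp only [f, ← hmul]; ring
  have hfi : ∀ g h, Integrable (fun x => f g x * f h x) μ := fun g h => by
    simp only [hprod]
    exact ((hind _ ((hpre g).inter (hpre h))).sub ((hind _ (hpre g)).const_mul a)).sub
      (((hind _ (hpre h)).const_mul a).sub (integrable_const _))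
  have hfval : ∀ g h, ∫ x, f g x * f h x ∂μ
      = μ.real (T^[g] ⁻¹' A ∩ T^[h] ⁻¹' A) - a ^ 2 := fun g h => by
    have i1 := hind _ ((hpre g).inter (hpre h))
    have i2 : Integrable (fun x => a * (T^[g] ⁻¹' A).indicator (fun _ => (1 : ℝ)) x) μ :=
      (hind _ (hpre g)).const_mul a
    have i3 : Integrable (fun x => a * (T^[h] ⁻¹' A).indicator (fun _ => (1 : ℝ)) x) μ :=
      (hind _ (hpre h)).const_mul a
    have i4 : Integrable (fun _ : Ω => a ^ 2) μ := integrable_const _
    have i12 : Integrable (fun x => (T^[g] ⁻¹' A ∩ T^[h] ⁻¹' A).indicator (fun _ => (1 : ℝ)) x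
        - a * (T^[g] ⁻¹' A).indicator (fun _ => (1 : ℝ)) x) μ := i1.sub i2
    have i34 : Integrable
        (fun x => a * (T^[h] ⁻¹' A).indicator (fun _ => (1 : ℝ)) x - a ^ 2) μ := i3.sub i4
    simp only [hprod]
    rw [integral_sub i12 i34, integral_sub i1 i2, integral_sub i3 i4,
      integral_const_mul, integral_const_mul, hint _ ((hpre g).inter (hpre h)), hint _ (hpre g),
      hint _ (hpre h), hmg, hmg]
    simp
    ring
  let c : ℕ → ℝ := fun g => if 0 ≤ μ.real (E ∩ T^[g] ⁻¹' A) - μ.real E * a then 1 else -1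
  have hc : ∀ g, |c g| = 1 := fun g => by simp only [c]; split <;> simp
  let F : Ω → ℝ := fun x => ∑ g ∈ S, c g * f g x
  have hFF : ∀ x, F x ^ 2 = ∑ g ∈ S, ∑ h ∈ S, c g * c h * (f g x * f h x) := fun x => by
    simp only [F, sq, Finset.sum_mul_sum]
    exact sum_congr rfl fun g _ => sum_congr rfl fun h _ => by ring
  have hFi : Integrable (fun x => F x ^ 2) μ := by
    simp only [hFF]
    exact integrable_finsetSum _ fun g _ => integrable_finsetSum _ fun h _ =>
      (hfi g h).const_mul _
  have hEF : ∀ x, E.indicator (fun _ => (1 : ℝ)) x * F x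
      = ∑ g ∈ S, c g * (E.indicator (fun _ => (1 : ℝ)) x * f g x) := fun x => by
    simp only [F, mul_sum]
    exact sum_congr rfl fun g _ => by ring
  set m : ℝ := (S.card : ℝ)
  have hm : 0 < m := by simp only [m]; exact_mod_cast hS.card_pos
  have h1 : δ * m ≤ ∫ x, E.indicator (fun _ => (1 : ℝ)) x * F x ∂μ := by
    simp only [hEF]
    rw [integral_finsetSum _ fun g _ => (hEf g).const_mul _]
    calc δ * m = ∑ g ∈ S, δ := by simp [m, mul_comm]
      _ ≤ _ := sum_le_sum fun g hg => by
        rw [integral_const_mul, hEval]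
        have := hbad g hg
        simp only [c]
        split
        · rw [abs_of_nonneg ‹_›] at this; linarith
        · rw [abs_of_neg (not_le.1 ‹_›)] at this; linarith
  have h2 : ∫ x, F x ^ 2 ∂μ ≤ m + m ^ 2 * (δ ^ 2 / 2) := by
    simp only [hFF]
    rw [integral_finsetSum _ fun g _ => integrable_finsetSum _ fun h _ => (hfi g h).const_mul _]
    calc ∑ g ∈ S, ∫ x, ∑ h ∈ S, c g * c h * (f g x * f h x) ∂μ
        ≤ ∑ g ∈ S, (1 + m * (δ ^ 2 / 2)) := sum_le_sum fun g hg => by
          rw [integral_finsetSum _ fun h _ => (hfi g h).const_mul _]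
          calc _ ≤ ∑ h ∈ S, ((if h = g then 1 else 0) + δ ^ 2 / 2) := sum_le_sum fun h hh => by
                rw [integral_const_mul, hfval]
                refine (le_abs_self _).trans ?_
                rw [abs_mul, abs_mul, hc, hc, one_mul, one_mul]
                rcases lt_trichotomy g h with hlt | rfl | hgt
                · rw [corr_shift hT hA hlt.le, if_neg hlt.ne', zero_add]
                  exact hL _ (by have := hsep g hg h hh hlt; omega)
                · have ha0 : 0 ≤ a := measureReal_nonneg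
                  have ha1 : a ≤ 1 := measureReal_le_one
                  have hd : 0 ≤ δ ^ 2 / 2 := by positivity
                  rw [if_pos rfl, Set.inter_self, hmg]
                  exact abs_le.2 ⟨by nlinarith, by nlinarith⟩
                · rw [Set.inter_comm, corr_shift hT hA hgt.le, if_neg hgt.ne, zero_add]
                  exact hL _ (by have := hsep h hh g hg hgt; omega)
            _ = _ := by rw [sum_add_distrib, sum_ite_eq', if_pos hg]; simp [m]
      _ = _ := by simp [m]; ring
  have hEFi : Integrable (fun x => E.indicator (fun _ => (1 : ℝ)) x * F x) μ := by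
    simp only [hEF]
    exact integrable_finsetSum _ fun g _ => (hEf g).const_mul _
  have h3 : ∫ x, E.indicator (fun _ => (1 : ℝ)) x * F x ∂μ
      ≤ δ * m / 2 + (∫ x, F x ^ 2 ∂μ) / (2 * (δ * m)) := by
    calc _ ≤ ∫ x, (δ * m / 2 + F x ^ 2 / (2 * (δ * m))) ∂μ :=
          integral_mono hEFi ((integrable_const _).add (hFi.div_const _)) fun x => by
            have ht : 0 < δ * m := by positivity
            simp only
            rw [div_add_div _ _ (by norm_num) (by positivity), le_div_iff₀ (by positivity)]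
            by_cases hx : x ∈ E
            · simp [hx]; nlinarith [sq_nonneg (F x - δ * m), ht]
            · simp [hx]; positivity
      _ = _ := by
          rw [integral_add (integrable_const _) (hFi.div_const _)]
          simp only [integral_const, probReal_univ, one_smul, integral_div]
  have h4 : δ * m / 2 ≤ (∫ x, F x ^ 2 ∂μ) / (2 * (δ * m)) := by linarith
  rw [le_div_iff₀ (by positivity)] at h4
  rw [le_div_iff₀ (by positivity)]
  nlinarith

/-- The set of bad times against any one set has uniformly bounded cardinality. -/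
lemma bad_times_bound (hT : MeasurePreserving T μ μ) {A : Set Ω} (hA : MeasurableSet A)
    (hmix : Tendsto (fun n => μ.real (A ∩ T^[n] ⁻¹' A)) atTop (𝓝 (μ.real A ^ 2)))
    {δ : ℝ} (hδ : 0 < δ) :
    ∃ C : ℕ, ∀ E : Set Ω, MeasurableSet E → ∀ N : ℕ,
      #{g ∈ range N | δ < |μ.real (E ∩ T^[g] ⁻¹' A) - μ.real E * μ.real A|} ≤ C := by
  obtain ⟨L₀, hL₀⟩ := Metric.tendsto_atTop.1 hmix (δ ^ 2 / 2) (by positivity)
  let L := L₀ + 1
  refine ⟨L * ⌊2 / δ ^ 2⌋₊, fun E hE N => ?_⟩
  set S := {g ∈ range N | δ < |μ.real (E ∩ T^[g] ⁻¹' A) - μ.real E * μ.real A|}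
  calc S.card = ∑ j ∈ range L, #{g ∈ S | g % L = j} :=
        card_eq_sum_card_fiberwise fun g _ =>
          mem_range.2 (Nat.mod_lt g (Nat.succ_pos L₀))
    _ ≤ ∑ j ∈ range L, ⌊2 / δ ^ 2⌋₊ := sum_le_sum fun j _ => Nat.le_floor <| by
        refine sep_card_le hT hA hE hδ (L := L) (fun d hd => (hL₀ d (by omega)).le) _ ?_ ?_
        · intro g hg h hh hlt
          simp only [mem_filter] at hg hh
          have hd : L ∣ h - g := (Nat.modEq_iff_dvd' hlt.le).1 (hg.2.trans hh.2.symm)
          have := Nat.le_of_dvd (by omega) hd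
          omega
        · exact fun g hg => (mem_filter.1 (mem_filter.1 hg).1).2
    _ = _ := by simp

/-- The count of bad gap vectors, by induction on their length. -/
lemma bad_config_bound (hT : MeasurePreserving T μ μ)
    (hmix : ∀ A : Set Ω, MeasurableSet A →
      Tendsto (fun n => μ.real (A ∩ T^[n] ⁻¹' A)) atTop (𝓝 (μ.real A ^ 2))) (n : ℕ) :
    ∀ A : Fin (n + 1) → Set Ω, (∀ i, MeasurableSet (A i)) → ∀ ε : ℝ, 0 < ε → ∃ C : ℕ, ∀ N : ℕ,
      #{g : Fin n → Fin N | ε < |μ.real (⋂ i : Fin (n + 1),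
          T^[∑ j : Fin n, if (j : ℕ) < i then (g j : ℕ) else 0] ⁻¹' A i)
        - ∏ i, μ.real (A i)|} ≤ C * N ^ (n - 1) := by
  induction n with
  | zero =>
    intro A hA ε hε
    refine ⟨0, fun N => ?_⟩
    simp [Set.iInter, iInf_unique, Fin.default_eq_zero, hε.le]
  | succ n ih =>
    intro A hA ε hε
    obtain ⟨C₁, hC₁⟩ := bad_times_bound hT (hA (Fin.last _)) (hmix _ (hA _)) (half_pos hε)
    obtain ⟨C₂, hC₂⟩ := ih (fun i => A i.castSucc) (fun i => hA _) (ε / 2) (half_pos hε)
    refine ⟨C₁ + C₂, fun N => ?_⟩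
    let pos : (Fin n → Fin N) → Fin (n + 1) → ℕ := fun g i =>
      ∑ j : Fin n, if (j : ℕ) < i then (g j : ℕ) else 0
    let E : (Fin n → Fin N) → Set Ω := fun g => ⋂ i, T^[pos g i] ⁻¹' A i.castSucc
    let s : (Fin n → Fin N) → ℕ := fun g => pos g (Fin.last n)
    have hE : ∀ g, MeasurableSet (E g) := fun g =>
      MeasurableSet.iInter fun i => (hT.iterate _).measurable (hA _)
    have hsplit : ∀ G : Fin (n + 1) → Fin N,
        (⋂ i : Fin (n + 2), T^[∑ j : Fin (n + 1), if (j : ℕ) < i then (G j : ℕ) else 0] ⁻¹' A i)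
          = E (fun j => G j.castSucc) ∩
            T^[s (fun j => G j.castSucc) + G (Fin.last n)] ⁻¹' A (Fin.last (n + 1)) := fun G => by
      ext x
      simp only [Set.mem_iInter, Set.mem_inter_iff, Fin.forall_fin_succ' (n := n + 1), E, s, pos,
        Fin.sum_univ_castSucc, Fin.val_castSucc, Fin.val_last]
      refine and_congr (forall_congr' fun i => ?_) ?_
      · rw [if_neg (by omega), add_zero]
      · rw [if_pos (Nat.lt_succ_self n)]
        simp [Finset.sum_congr, (fun j : Fin n => (j.isLt.trans (Nat.lt_succ_self n)))]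
    let big : Finset (Fin n → Fin N) := {g | ε / 2 < |μ.real (E g) - ∏ i, μ.real (A (Fin.castSucc i))|}
    let row : (Fin n → Fin N) → Finset (Fin N) := fun g => {t | ε / 2 <
      |μ.real (E g ∩ T^[s g + t] ⁻¹' A (Fin.last _)) - μ.real (E g) * μ.real (A (Fin.last _))|}
    have hrow : ∀ g, (row g).card ≤ C₁ := fun g => by
      refine le_trans ?_ (hC₁ (E g) (hE g) (s g + N))
      refine card_le_card_of_injOn (fun t => s g + (t : ℕ)) (fun t ht => ?_) ?_
      · simpa [row] using ht
      · exact fun t _ t' _ h => Fin.ext (by simpa using h)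
    have hsub : ({G : Fin (n + 1) → Fin N | ε < |μ.real (⋂ i : Fin (n + 1 + 1),
          T^[∑ j : Fin (n + 1), if (j : ℕ) < i then (G j : ℕ) else 0] ⁻¹' A i)
        - ∏ i, μ.real (A i)|} : Finset _) ⊆
        ((big ×ˢ (univ : Finset (Fin N))) ∪
          (univ : Finset (Fin n → Fin N)).biUnion (fun g => (row g).image (Prod.mk g))).image
            (fun p => Fin.snoc p.1 p.2) := by
      intro G hG
      simp only [mem_filter, mem_univ, true_and] at hG
      refine mem_image.2 ⟨(fun j => G j.castSucc, G (Fin.last n)), ?_, Fin.snoc_init_self G⟩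
      simp only [mem_union, mem_product, mem_univ, and_true, mem_biUnion, mem_image, true_and,
        Prod.mk.injEq, big, row, mem_filter]
      by_contra hcon
      push Not at hcon
      obtain ⟨hb, hr⟩ := hcon
      rw [hsplit, Fin.prod_univ_castSucc] at hG
      have hr' : ¬ ε / 2 < |μ.real (E (fun j => G j.castSucc) ∩
          T^[s (fun j => G j.castSucc) + (G (Fin.last n) : ℕ)] ⁻¹' A (Fin.last _))
          - μ.real (E (fun j => G j.castSucc)) * μ.real (A (Fin.last _))| :=
        fun h => hr _ _ h rfl rfl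
      have ha : |μ.real (A (Fin.last (n + 1)))| ≤ 1 := by
        rw [abs_of_nonneg measureReal_nonneg]; exact measureReal_le_one
      have e := abs_sub_le (μ.real (E (fun j => G j.castSucc) ∩
          T^[s (fun j => G j.castSucc) + (G (Fin.last n) : ℕ)] ⁻¹' A (Fin.last _)))
          (μ.real (E (fun j => G j.castSucc)) * μ.real (A (Fin.last _)))
          ((∏ i : Fin (n + 1), μ.real (A i.castSucc)) * μ.real (A (Fin.last _)))
      rw [← sub_mul, abs_mul] at e
      have e2 := mul_le_mul hb ha (abs_nonneg _) (half_pos hε).le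
      linarith [not_lt.1 hr']
    refine (card_le_card hsub).trans (card_image_le.trans ((card_union_le _ _).trans ?_))
    rw [card_product, card_univ, Fintype.card_fin]
    have h1 : big.card * N ≤ C₂ * N ^ n := by
      rcases n with _ | k
      · have : big = ∅ := by simp [big, E, pos, Set.iInter, (half_pos hε).le]
        simp [this]
      · calc big.card * N ≤ C₂ * N ^ (k + 1 - 1) * N := Nat.mul_le_mul_right _ (hC₂ N)
          _ = _ := by rw [Nat.add_sub_cancel, mul_assoc, ← pow_succ]
    have h2 : ((univ : Finset (Fin n → Fin N)).biUnion fun g => (row g).image (Prod.mk g)).card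
        ≤ C₁ * N ^ n := by
      refine (card_biUnion_le).trans ((sum_le_card_nsmul _ _ C₁ fun g _ =>
        card_image_le.trans (hrow g)).trans ?_)
      simp [mul_comm]
    rw [Nat.add_sub_cancel, add_mul]
    omega

end Vale.Agent.P102
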