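import Vale.Agent.P102.MixBounded

/-!
# P102: no exact group relation along escaping times

If `T` is mixing and mixing of order `n ≥ 2` and a circle valued `u` satisfies, asymptotically in
mean, `∏ i, u (T^(t i) x) ^ (± 1) = c` along `n + 1` times with gaps tending to infinity, then `u`
is constant.  For a character polynomial `p` the mean `φ p` of `∏ i, u (T^i x) ^ (p i)` has
modulus `0` or `1`; those of modulus `1` form an ideal of `ℤ[X]`, which must then be everything.
-/

open MeasureTheory Filter Topology Finset Polynomial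

namespace Vale.Agent.P102.ExactRelation

open LocalFinite (MixOrder)
open MixBounded (Good good_of_bdd cdfc)

variable {Ω : Type*} (T : Ω → Ω) (u : Ω → Circle)

/-- The combination of the translates of `u` with exponents the coefficients of `p`. -/
noncomputable def L (p : ℤ[X]) (x : Ω) : Additive Circle :=
  p.sum fun i c => c • Additive.ofMul (u (T^[i] x))

/-- The same, as a complex number. -/
noncomputable def E (p : ℤ[X]) (x : Ω) : ℂ := ((Additive.toMul (L T u p x) : Circle) : ℂ)

theorem L_add (p q : ℤ[X]) (x : Ω) : L T u (p + q) x = L T u p x + L T u q x :=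
  Polynomial.sum_add_index p q _ (fun _ => zero_zsmul _) fun _ a b => add_zsmul _ a b

theorem L_monomial (i : ℕ) (c : ℤ) (x : Ω) :
    L T u (monomial i c) x = c • Additive.ofMul (u (T^[i] x)) :=
  Polynomial.sum_monomial_index c _ (zero_zsmul _)

theorem L_zero (x : Ω) : L T u 0 x = 0 := Polynomial.sum_zero_index _

theorem L_one (x : Ω) : L T u 1 x = Additive.ofMul (u x) := by
  rw [← monomial_zero_one, L_monomial]; simp

theorem L_neg (p : ℤ[X]) (x : Ω) : L T u (-p) x = -L T u p x := by
  rw [eq_neg_iff_add_eq_zero, ← L_add, neg_add_cancel, L_zero]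

theorem L_C_mul (a : ℤ) (p : ℤ[X]) (x : Ω) : L T u (C a * p) x = a • L T u p x := by
  induction p using Polynomial.induction_on' with
  | add p q hp hq => rw [mul_add, L_add, L_add, hp, hq, zsmul_add]
  | monomial i c => rw [C_mul_monomial, L_monomial, L_monomial, mul_zsmul]

theorem L_X_pow_mul (k : ℕ) (p : ℤ[X]) (x : Ω) : L T u (X ^ k * p) x = L T u p (T^[k] x) := by
  induction p using Polynomial.induction_on' with
  | add p q hp hq => rw [mul_add, L_add, L_add, hp, hq]
  | monomial i c =>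
    rw [X_pow_eq_monomial, monomial_mul_monomial, L_monomial, L_monomial, one_mul,
      ← Function.iterate_add_apply, add_comm i k]

theorem L_sum {ι : Type*} (s : Finset ι) (p : ι → ℤ[X]) (x : Ω) :
    L T u (∑ i ∈ s, p i) x = ∑ i ∈ s, L T u (p i) x := by
  classical
  induction s using Finset.induction_on with
  | empty => simp [L_zero]
  | insert a s ha ih => rw [Finset.sum_insert ha, Finset.sum_insert ha, L_add, ih]

theorem E_add (p q : ℤ[X]) (x : Ω) : E T u (p + q) x = E T u p x * E T u q x := by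
  simp [E, L_add]

theorem E_neg (p : ℤ[X]) (x : Ω) : E T u (-p) x = starRingEnd ℂ (E T u p x) := by
  rw [E, E, L_neg, toMul_neg, Circle.coe_inv_eq_conj]

theorem norm_E (p : ℤ[X]) (x : Ω) : ‖E T u p x‖ = 1 := Circle.norm_coe _

/-- The relation polynomial of signed times. -/
noncomputable def rel {n : ℕ} (t : Fin n → ℕ) (e : Fin n → Bool) : ℤ[X] :=
  ∑ i, (if e i then 1 else -1) * X ^ t i

theorem L_rel_mul {n : ℕ} (t : Fin n → ℕ) (e : Fin n → Bool) (p : ℤ[X]) (x : Ω) :
    L T u (rel t e * p) x = ∑ i, L T u (if e i then p else -p) (T^[t i] x) := by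
  rw [rel, Finset.sum_mul, L_sum]
  refine Finset.sum_congr rfl fun i _ => ?_
  rw [← L_X_pow_mul]
  congr 1
  split_ifs <;> ring

variable {T u} [MeasurableSpace Ω] {μ : Measure Ω}

theorem measurable_E (hT : Measurable T) (hu : Measurable fun x => (u x : ℂ)) (p : ℤ[X]) :
    Measurable (E T u p) := by
  induction p using Polynomial.induction_on' with
  | add p q hp hq => rw [show E T u (p + q) = E T u p * E T u q from funext (E_add T u p q)]; exact hp.mul hq
  | monomial i c =>
    have e : E T u (monomial i c) = fun x => (u (T^[i] x) : ℂ) ^ c := funext fun x => by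
      rw [E, L_monomial, toMul_zsmul, toMul_ofMul, Circle.coe_zpow]
    rw [e]
    have hm : Measurable fun x => (u (T^[i] x) : ℂ) :=
      hu.comp (hT.iterate i)
    rcases c with k | k
    · simpa using hm.pow_const k
    · simp only [zpow_negSucc]; exact (hm.pow_const (k + 1)).inv

variable [IsProbabilityMeasure μ] (hT : MeasurePreserving T μ μ) (hu : Measurable fun x => (u x : ℂ))

variable (T u μ) in
/-- The polynomials whose combination is constant almost everywhere. -/
def Cst (p : ℤ[X]) : Prop := ∃ c : Additive Circle, ∀ᵐ x ∂μ, L T u p x = c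

variable (T u μ) in
/-- The mean of a combination. -/
noncomputable def φ (p : ℤ[X]) : ℂ := ∫ x, E T u p x ∂μ

omit [IsProbabilityMeasure μ] in
theorem φ_neg (p : ℤ[X]) : φ T u μ (-p) = starRingEnd ℂ (φ T u μ p) := by
  simp only [φ, E_neg]
  exact integral_conj

omit [IsProbabilityMeasure μ] in
theorem cst_zero : Cst T u μ 0 := ⟨0, ae_of_all _ fun x => L_zero T u x⟩

omit [IsProbabilityMeasure μ] in
theorem cst_add {p q : ℤ[X]} (hp : Cst T u μ p) (hq : Cst T u μ q) : Cst T u μ (p + q) := by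
  obtain ⟨c, hc⟩ := hp
  obtain ⟨d, hd⟩ := hq
  exact ⟨c + d, by filter_upwards [hc, hd] with x h1 h2; rw [L_add, h1, h2]⟩

include hT hu

theorem integrable_E (p : ℤ[X]) : Integrable (E T u p) μ :=
  (integrable_const (1 : ℝ)).mono' (measurable_E hT.measurable hu p).aestronglyMeasurable
    (ae_of_all _ fun x => (norm_E T u p x).le)

omit hT hu in
theorem norm_φ_le (p : ℤ[X]) : ‖φ T u μ p‖ ≤ 1 := by
  simpa [φ] using norm_integral_le_of_norm_le_const (μ := μ)
    (ae_of_all μ fun x => (norm_E T u p x).le)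

/-- A mean of modulus one forces a constant. -/
theorem cst_of_norm_one {p : ℤ[X]} (h : ‖φ T u μ p‖ = 1) : Cst T u μ p := by
  set f := E T u p
  set z := φ T u μ p with hz
  have hi : Integrable (fun x => starRingEnd ℂ z * f x) μ := (integrable_E hT hu p).const_mul _
  have e : ∀ x, ‖f x - z‖ ^ 2 = 2 - 2 * (starRingEnd ℂ z * f x).re := fun x => by
    rw [Complex.sq_norm, Complex.normSq_sub, ← Complex.sq_norm, ← Complex.sq_norm, norm_E, h,
      mul_comm (starRingEnd ℂ z)]
    ring
  have hmean : ∫ x, (starRingEnd ℂ z * f x).re ∂μ = 1 := by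
    rw [show (fun x => (starRingEnd ℂ z * f x).re) = fun x => RCLike.re (starRingEnd ℂ z * f x)
      from rfl, integral_re hi, integral_const_mul]
    show (starRingEnd ℂ z * z).re = 1
    rw [← Complex.normSq_eq_conj_mul_self, Complex.ofReal_re, ← Complex.sq_norm, h, one_pow]
  have hir : Integrable (fun x => (starRingEnd ℂ z * f x).re) μ := hi.re
  have h0 : ∫ x, ‖f x - z‖ ^ 2 ∂μ = 0 := by
    simp only [e]
    rw [integral_sub (integrable_const _) (hir.const_mul 2), integral_const_mul]
    rw [hmean]; simp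
  have hint : Integrable (fun x => ‖f x - z‖ ^ 2) μ := by
    simp only [e]
    exact (integrable_const _).sub (hir.const_mul 2)
  have hae : ∀ᵐ x ∂μ, f x = z := by
    filter_upwards [(integral_eq_zero_iff_of_nonneg (fun x => sq_nonneg _) hint).1 h0] with x hx
    simpa [sub_eq_zero] using hx
  obtain ⟨x₀, hx₀⟩ := hae.exists
  refine ⟨L T u p x₀, ?_⟩
  filter_upwards [hae] with x hx
  exact Additive.toMul.injective (Circle.coe_injective (hx.trans hx₀.symm))

/-- Mixing forbids nonconstant eigen combinations. -/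
theorem cst_of_eigen (h2 : MixOrder μ T 2) {N : ℕ} (hN : 0 < N) {q : ℤ[X]}
    (h : Cst T u μ ((X ^ N - 1) * q)) : Cst T u μ q := by
  obtain ⟨c, hc⟩ := h
  refine cst_of_norm_one hT hu ?_
  have hstep : ∀ᵐ x ∂μ, L T u q (T^[N] x) = c + L T u q x := by
    filter_upwards [hc] with x hx
    rw [sub_mul, one_mul, sub_eq_add_neg, L_add, L_neg, L_X_pow_mul, ← sub_eq_add_neg,
      sub_eq_iff_eq_add] at hx
    exact hx
  have hpow : ∀ j : ℕ, ∀ᵐ x ∂μ, L T u q (T^[j * N] x) = j • c + L T u q x := by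
    intro j
    induction j with
    | zero => exact ae_of_all _ fun x => by simp
    | succ j ih =>
      filter_upwards [ih, (hT.iterate (j * N)).quasiMeasurePreserving.ae hstep] with x h1 h2
      rw [add_mul, one_mul, add_comm (j * N), Function.iterate_add_apply, h2, h1, succ_nsmul,
        ← add_assoc, add_comm c]
  set f := E T u q
  have hgood := good_of_bdd hT h2 ![fun x => starRingEnd ℂ (f x), f] fun i => by
    fin_cases i
    · exact ⟨Complex.continuous_conj.measurable.comp (measurable_E hT.measurable hu q),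
        fun x => by simp [f, norm_E]⟩
    · exact ⟨measurable_E hT.measurable hu q, fun x => (norm_E T u q x).le⟩
  refine le_antisymm (norm_φ_le (T := T) (u := u) (μ := μ) q) (le_of_forall_pos_lt_add fun ε hε => ?_)
  obtain ⟨D, hD⟩ := hgood ε hε
  have h := hD ![0, D * N] fun i k hik => by
    have : D ≤ D * N := Nat.le_mul_of_pos_right D hN
    fin_cases i <;> fin_cases k <;> first
      | (exfalso; exact absurd hik (by decide))
      | (simp; omega)
  have e : ∀ᵐ x ∂μ, starRingEnd ℂ (f x) * f (T^[D * N] x) = ((Additive.toMul (D • c) : Circle) : ℂ) := by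
    filter_upwards [hpow D] with x hx
    show starRingEnd ℂ (E T u q x) * E T u q (T^[D * N] x) = _
    simp only [E, hx, toMul_add, Circle.coe_mul]
    rw [mul_left_comm, ← Complex.normSq_eq_conj_mul_self, Circle.normSq_coe]
    simp
  simp only [cdfc, Fin.prod_univ_two, Matrix.cons_val_zero, Matrix.cons_val_one,
    Matrix.cons_val_fin_one, Function.iterate_zero, id_eq] at h
  rw [integral_congr_ae e, integral_const, probReal_univ, one_smul, integral_conj] at h
  have h1 := (norm_sub_norm_le _ _).trans_lt h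
  rw [Circle.norm_coe, norm_mul, Complex.norm_conj] at h1
  have h2' := norm_φ_le (T := T) (u := u) (μ := μ) q
  show 1 < ‖φ T u μ q‖ + ε
  simp only [φ] at h2' ⊢
  nlinarith [norm_nonneg (∫ x, f x ∂μ)]

omit [IsProbabilityMeasure μ] hu in
theorem cst_mul {q : ℤ[X]} (hq : Cst T u μ q) (p : ℤ[X]) : Cst T u μ (p * q) := by
  induction p using Polynomial.induction_on' with
  | add a b ha hb => rw [add_mul]; exact cst_add ha hb
  | monomial i k =>
    obtain ⟨c, hc⟩ := hq
    refine ⟨k • c, ?_⟩
    filter_upwards [(hT.iterate i).quasiMeasurePreserving.ae hc] with x hx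
    rw [← C_mul_X_pow_eq_monomial, mul_assoc, L_C_mul, L_X_pow_mul, hx]

omit [IsProbabilityMeasure μ] in
/-- A polynomial may be divided by a power of `X`. -/
theorem cst_of_X_pow (k : ℕ) {q : ℤ[X]} (h : Cst T u μ (X ^ k * q)) : Cst T u μ q := by
  obtain ⟨c, hc⟩ := h
  refine ⟨c, ?_⟩
  have hm : MeasurableSet {y | L T u q y = c} := by
    have : {y | L T u q y = c} = E T u q ⁻¹' {((Additive.toMul c : Circle) : ℂ)} := by
      ext y
      simp [E, Circle.coe_inj]
    rw [this]
    exact measurable_E hT.measurable hu q (measurableSet_singleton _)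
  have h' : ∀ᵐ y ∂(μ.map T^[k]), L T u q y = c := by
    rw [ae_map_iff (hT.iterate k).measurable.aemeasurable hm]
    filter_upwards [hc] with x hx
    rwa [L_X_pow_mul] at hx
  rwa [(hT.iterate k).map_eq] at h'

omit [IsProbabilityMeasure μ] hT hu in
theorem norm_zpow_sub_le (z w : Circle) (a : ℤ) :
    ‖((z ^ a : Circle) : ℂ) - ((w ^ a : Circle) : ℂ)‖ ≤ |(a : ℝ)| * ‖(z : ℂ) - (w : ℂ)‖ := by
  have nat : ∀ k : ℕ, ‖(z : ℂ) ^ k - (w : ℂ) ^ k‖ ≤ k * ‖(z : ℂ) - (w : ℂ)‖ := fun k => by
    induction k with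
    | zero => simp
    | succ k ih =>
      have e : (z : ℂ) ^ (k + 1) - (w : ℂ) ^ (k + 1) =
          ((z : ℂ) ^ k - (w : ℂ) ^ k) * z + (w : ℂ) ^ k * ((z : ℂ) - w) := by ring
      rw [e]
      refine (norm_add_le _ _).trans ?_
      rw [norm_mul, norm_mul, norm_pow, Circle.norm_coe, Circle.norm_coe, one_pow, mul_one, one_mul]
      push_cast
      linarith
  rcases a with k | k
  · simpa using nat k
  · rw [zpow_negSucc, zpow_negSucc, Circle.coe_inv_eq_conj, Circle.coe_inv_eq_conj, ← map_sub,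
      Complex.norm_conj, Circle.coe_pow, Circle.coe_pow]
    refine (nat (k + 1)).trans (le_of_eq ?_)
    rw [Int.cast_negSucc, abs_neg, Nat.abs_cast]

/-- An asymptotic relation passes to every multiple. -/
theorem near_mul (G : ℕ → ℤ[X])
    (h : ∃ d : ℕ → Circle, Tendsto (fun k => ∫ x, ‖E T u (G k) x - d k‖ ∂μ) atTop (𝓝 0))
    (p : ℤ[X]) :
    ∃ d : ℕ → Circle, Tendsto (fun k => ∫ x, ‖E T u (G k * p) x - d k‖ ∂μ) atTop (𝓝 0) := by
  have hint : ∀ (q : ℤ[X]) (d : Circle), Integrable (fun x => ‖E T u q x - d‖) μ := fun q d =>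
    ((integrable_E hT hu q).sub (integrable_const _)).norm
  induction p using Polynomial.induction_on' with
  | add p q hp hq =>
    obtain ⟨d, hd⟩ := hp
    obtain ⟨d', hd'⟩ := hq
    refine ⟨fun k => d k * d' k, squeeze_zero (fun k => integral_nonneg fun x => norm_nonneg _)
      (fun k => ?_) (by simpa using hd.add hd')⟩
    rw [← integral_add (hint _ _) (hint _ _)]
    refine integral_mono (hint _ _) ((hint _ _).add (hint _ _)) fun x => ?_
    simp only [mul_add, E_add, Circle.coe_mul]
    have e : E T u (G k * p) x * E T u (G k * q) x - (d k : ℂ) * d' k =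
        (E T u (G k * p) x - d k) * E T u (G k * q) x + d k * (E T u (G k * q) x - d' k) := by ring
    rw [e]
    refine (norm_add_le _ _).trans (le_of_eq ?_)
    rw [norm_mul, norm_mul, norm_E, Circle.norm_coe, mul_one, one_mul]
  | monomial i a =>
    obtain ⟨d, hd⟩ := h
    refine ⟨fun k => d k ^ a, squeeze_zero (fun k => integral_nonneg fun x => norm_nonneg _)
      (fun k => ?_) (by simpa using hd.const_mul |(a : ℝ)|)⟩
    have e : ∀ x, E T u (G k * monomial i a) x =
        ((Additive.toMul (L T u (G k) (T^[i] x)) ^ a : Circle) : ℂ) := fun x => by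
      rw [E, mul_comm, ← C_mul_X_pow_eq_monomial, mul_assoc, L_C_mul, L_X_pow_mul, toMul_zsmul]
    simp only [e]
    have hb : Integrable (fun x => ‖E T u (G k) (T^[i] x) - d k‖) μ :=
      (hT.iterate i).integrable_comp_of_integrable (hint _ _)
    have hm : ∫ x, ‖E T u (G k) (T^[i] x) - d k‖ ∂μ = ∫ x, ‖E T u (G k) x - d k‖ ∂μ := by
      have := integral_map (hT.iterate i).measurable.aemeasurable
        (f := fun y => ‖E T u (G k) y - d k‖)
        (by rw [(hT.iterate i).map_eq]; exact (hint _ _).aestronglyMeasurable)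
      rw [(hT.iterate i).map_eq] at this
      exact this.symm
    rw [← hm, ← integral_const_mul]
    refine integral_mono_of_nonneg (ae_of_all _ fun x => norm_nonneg _) (hb.const_mul _)
      (ae_of_all _ fun x => ?_)
    exact norm_zpow_sub_le _ _ a

/-- Means of modulus `0` or `1`. -/
theorem φ_dichotomy {n : ℕ} (hn2 : 2 ≤ n) (hn : MixOrder μ T n) (t : ℕ → Fin (n + 1) → ℕ)
    (e : ℕ → Fin (n + 1) → Bool) (ht0 : ∀ k, t k 0 = 0)
    (hgap : ∀ D : ℕ, ∀ᶠ k in atTop, ∀ i j, i < j → t k i + D ≤ t k j)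
    (h : ∃ d : ℕ → Circle,
      Tendsto (fun k => ∫ x, ‖E T u (rel (t k) (e k)) x - d k‖ ∂μ) atTop (𝓝 0))
    (p : ℤ[X]) : ‖φ T u μ p‖ = 0 ∨ ‖φ T u μ p‖ = 1 := by
  classical
  obtain ⟨d, hd⟩ := near_mul hT hu (fun k => rel (t k) (e k)) h p
  set a := ‖φ T u μ p‖
  have habs : ∀ b : Bool, ‖φ T u μ (if b then p else -p)‖ = a := fun b => by
    cases b <;> simp [a, φ_neg]
  let tl : ℕ → Fin n → ℕ := fun k i => t k i.succ
  have key : ∀ ε : ℝ, 0 < ε → |a - a ^ n| < ε := by
    intro ε hε
    have hgood : ∀ s : Fin n → Bool, ∃ D : ℕ, ∀ t : Fin n → ℕ,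
        (∀ i j, i < j → t i + D ≤ t j) →
        ‖cdfc μ T (fun i => E T u (if s i then p else -p)) t‖ < ε / 2 := fun s =>
      good_of_bdd hT hn _ (fun i => ⟨measurable_E hT.measurable hu _,
        fun x => (norm_E T u _ x).le⟩) (ε / 2) (half_pos hε)
    choose D hD using hgood
    obtain ⟨k, hk, hk'⟩ := ((hgap (univ.sup D)).and
      (hd.eventually_lt_const (half_pos hε))).exists
    set s : Fin n → Bool := fun i => e k i.succ
    have h1 := hD s (tl k) fun i j hij => by
      have := hk _ _ (Fin.succ_lt_succ_iff.2 hij)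
      have : D s ≤ univ.sup D := le_sup (f := D) (mem_univ s)
      simp only [tl]
      omega
    set q := if e k 0 then p else -p
    set Pr : Ω → ℂ := fun x => ∏ i, E T u (if s i then p else -p) (T^[tl k i] x)
    have hsplit : ∀ x, E T u (rel (t k) (e k) * p) x = E T u q x * Pr x := fun x => by
      simp only [E, Pr, L_rel_mul, Fin.sum_univ_succ, ht0, Function.iterate_zero, id_eq, toMul_add,
        Circle.coe_mul, toMul_sum, q, s, tl]
      congr 1
      exact map_prod Circle.coeHom _ _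
    have hPrm : Measurable Pr := Finset.measurable_prod _ fun i _ =>
      (measurable_E hT.measurable hu _).comp (hT.iterate _).measurable
    have hPr1 : ∀ x, ‖Pr x‖ = 1 := fun x => by simp [Pr, norm_E]
    have hPr : Integrable (fun x => starRingEnd ℂ (Pr x)) μ :=
      (integrable_const (1 : ℝ)).mono'
        (Complex.continuous_conj.measurable.comp hPrm).aestronglyMeasurable
        (ae_of_all _ fun x => by simp [hPr1])
    have h2 : ‖φ T u μ q - (d k : ℂ) * starRingEnd ℂ (∫ x, Pr x ∂μ)‖ ≤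
        ∫ x, ‖E T u (rel (t k) (e k) * p) x - d k‖ ∂μ := by
      rw [φ, ← integral_conj, ← integral_const_mul,
        ← integral_sub (integrable_E hT hu q) (hPr.const_mul _)]
      refine (norm_integral_le_integral_norm _).trans (le_of_eq (integral_congr_ae
        (ae_of_all _ fun x => ?_)))
      have h1' : Pr x * starRingEnd ℂ (Pr x) = 1 := by
        rw [Complex.mul_conj', hPr1]; simp
      show ‖E T u q x - (d k : ℂ) * starRingEnd ℂ (Pr x)‖ = _
      beta_reduce
      rw [hsplit, show E T u q x - (d k : ℂ) * starRingEnd ℂ (Pr x) =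
        (E T u q x * Pr x - d k) * starRingEnd ℂ (Pr x) by rw [sub_mul, mul_assoc, h1', mul_one],
        norm_mul, Complex.norm_conj, hPr1, mul_one]
    have h3 : |a - ‖∫ x, Pr x ∂μ‖| ≤ ∫ x, ‖E T u (rel (t k) (e k) * p) x - d k‖ ∂μ := by
      refine le_trans ?_ h2
      have := abs_norm_sub_norm_le (φ T u μ q) ((d k : ℂ) * starRingEnd ℂ (∫ x, Pr x ∂μ))
      rwa [habs, norm_mul, Circle.norm_coe, one_mul, Complex.norm_conj] at this
    have h4 : |‖∫ x, Pr x ∂μ‖ - a ^ n| < ε / 2 := by
      refine (le_trans (le_of_eq ?_) (abs_norm_sub_norm_le (∫ x, Pr x ∂μ)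
        (∏ i, φ T u μ (if s i then p else -p)))).trans_lt h1
      rw [norm_prod]
      simp [habs]
    calc |a - a ^ n| ≤ |a - ‖∫ x, Pr x ∂μ‖| + |‖∫ x, Pr x ∂μ‖ - a ^ n| := abs_sub_le _ _ _
      _ < ε := by linarith
  have heq : a = a ^ n := by
    by_contra hne
    exact lt_irrefl _ (key _ (abs_pos.2 (sub_ne_zero.2 hne)))
  rcases eq_or_ne a 0 with h0 | h0
  · exact Or.inl h0
  · refine Or.inr ((pow_left_inj₀ (norm_nonneg _) zero_le_one (by omega : n - 1 ≠ 0)).1 ?_)
    rw [one_pow]
    have : a * a ^ (n - 1) = a * 1 := by rw [mul_one, ← pow_succ', Nat.sub_add_cancel (by omega), ← heq]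
    exact mul_left_cancel₀ h0 this

omit [IsProbabilityMeasure μ] hT hu in
/-- Up to sign the relation polynomial is monic, of degree the last time. -/
theorem monic_rel {n : ℕ} {t : Fin (n + 1) → ℕ} (e : Fin (n + 1) → Bool) (ht : StrictMono t) :
    ∃ s : ℤ, (C s * rel t e).Monic ∧ (C s * rel t e).natDegree = t (Fin.last n) := by
  classical
  set σ : Fin (n + 1) → ℤ := fun i => if e i then 1 else -1 with hσ
  have hrel : rel t e = ∑ i, C (σ i) * X ^ t i := by
    refine Finset.sum_congr rfl fun i _ => ?_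
    simp only [σ]
    split_ifs <;> simp
  have hc : (C (σ (Fin.last n)) * rel t e).coeff (t (Fin.last n)) = 1 := by
    rw [coeff_C_mul, hrel, finsetSum_coeff, Finset.sum_eq_single (Fin.last n)]
    · rw [coeff_C_mul_X_pow, if_pos rfl]
      simp only [σ]
      split_ifs <;> norm_num
    · intro i _ hi
      rw [coeff_C_mul_X_pow, if_neg fun h => hi (ht.injective h.symm)]
    · simp
  have hd : (C (σ (Fin.last n)) * rel t e).natDegree ≤ t (Fin.last n) := by
    refine (natDegree_C_mul_le _ _).trans ?_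
    rw [hrel]
    exact natDegree_sum_le_of_forall_le _ _ fun i _ =>
      (natDegree_C_mul_X_pow_le _ _).trans (ht.monotone (Fin.le_last i))
  exact ⟨σ (Fin.last n), monic_of_natDegree_le_of_coeff_eq_one _ hd hc,
    natDegree_eq_of_le_of_coeff_ne_zero hd (by rw [hc]; exact one_ne_zero)⟩

omit [IsProbabilityMeasure μ] hT hu in
/-- A signed sum of powers with large gaps vanishes only on the unit circle. -/
theorem norm_eq_one_of_root {n : ℕ} {z : ℂ}
    (h : ∀ D : ℕ, ∃ (t : Fin (n + 1) → ℕ) (e : Fin (n + 1) → Bool), t 0 = 0 ∧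
      (∀ i j, i < j → t i + D ≤ t j) ∧ ∑ i, (if e i then 1 else -1) * z ^ t i = 0) :
    ‖z‖ = 1 := by
  classical
  rcases lt_trichotomy ‖z‖ 1 with hlt | heq | hgt
  · exfalso
    obtain ⟨D, hD⟩ := exists_pow_lt_of_lt_one (show (0 : ℝ) < 1 / ((n : ℝ) + 1) by positivity) hlt
    obtain ⟨t, e, h0, hg, hs⟩ := h D
    rw [Fin.sum_univ_succ, h0, pow_zero, mul_one] at hs
    have h1 : ‖(if e 0 then 1 else -1 : ℂ)‖ = 1 := by split_ifs <;> simp
    rw [eq_neg_of_add_eq_zero_left hs, norm_neg] at h1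
    have h2 := (norm_sum_le univ fun i : Fin n => (if e i.succ then 1 else -1 : ℂ) * z ^ t i.succ)
    rw [h1] at h2
    have h3 : (1 : ℝ) ≤ n * ‖z‖ ^ D := by
      refine h2.trans ((Finset.sum_le_card_nsmul _ _ (‖z‖ ^ D) fun i _ => ?_).trans_eq (by simp))
      have : D ≤ t i.succ := by have := hg 0 i.succ i.succ_pos; omega
      rw [norm_mul, norm_pow, show ‖(if e i.succ then 1 else -1 : ℂ)‖ = 1 by split_ifs <;> simp,
        one_mul]
      exact pow_le_pow_of_le_one (norm_nonneg _) hlt.le this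
    have h4 : (n : ℝ) * ‖z‖ ^ D ≤ n * (1 / ((n : ℝ) + 1)) :=
      mul_le_mul_of_nonneg_left hD.le n.cast_nonneg
    have h5 : (n : ℝ) * (1 / ((n : ℝ) + 1)) < 1 := by
      rw [mul_one_div, div_lt_one (by positivity)]; linarith
    linarith
  · exact heq
  · exfalso
    obtain ⟨D, hD⟩ := pow_unbounded_of_one_lt (n : ℝ) hgt
    obtain ⟨t, e, -, hg, hs⟩ := h D
    rw [Fin.sum_univ_castSucc] at hs
    have h1 : ‖(if e (Fin.last n) then 1 else -1 : ℂ) * z ^ t (Fin.last n)‖ =
        ‖z‖ ^ t (Fin.last n) := by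
      rw [norm_mul, norm_pow, show ‖(if e (Fin.last n) then 1 else -1 : ℂ)‖ = 1 by
        split_ifs <;> simp, one_mul]
    rw [eq_neg_of_add_eq_zero_right hs, norm_neg] at h1
    have h2 := norm_sum_le univ fun i : Fin n =>
      (if e i.castSucc then 1 else -1 : ℂ) * z ^ t i.castSucc
    rw [h1] at h2
    rcases Nat.eq_zero_or_pos n with rfl | hn
    · simp at h2
      exact absurd h2 (not_le.2 (pow_pos (by linarith) _))
    have hDt : D ≤ t (Fin.last n) := by
      have := hg (⟨0, hn⟩ : Fin n).castSucc (Fin.last n) (Fin.castSucc_lt_last _)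
      omega
    have h3 : ‖z‖ ^ t (Fin.last n) ≤ n * ‖z‖ ^ (t (Fin.last n) - D) := by
      refine h2.trans ((Finset.sum_le_card_nsmul _ _ (‖z‖ ^ (t (Fin.last n) - D))
        fun i _ => ?_).trans_eq (by simp))
      have : t i.castSucc ≤ t (Fin.last n) - D := by
        have := hg i.castSucc (Fin.last n) (Fin.castSucc_lt_last i)
        omega
      rw [norm_mul, norm_pow, show ‖(if e i.castSucc then 1 else -1 : ℂ)‖ = 1 by
        split_ifs <;> simp, one_mul]
      exact pow_le_pow_right₀ hgt.le this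
    have h6 : ‖z‖ ^ t (Fin.last n) = ‖z‖ ^ D * ‖z‖ ^ (t (Fin.last n) - D) := by
      rw [← pow_add, Nat.add_sub_cancel' hDt]
    have hp : 0 < ‖z‖ ^ (t (Fin.last n) - D) := pow_pos (by linarith) _
    rw [h6] at h3
    linarith [le_of_mul_le_mul_right h3 hp]

omit [IsProbabilityMeasure μ] hT hu in
theorem exists_scale (r : ℚ[X]) : ∃ M : ℤ, M ≠ 0 ∧ ∃ p : ℤ[X],
    C (M : ℚ) * r = p.map (Int.castRingHom ℚ) := by
  induction r using Polynomial.induction_on' with
  | add a b ha hb =>
    obtain ⟨M, hM, p, hp⟩ := ha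
    obtain ⟨M', hM', p', hp'⟩ := hb
    refine ⟨M * M', mul_ne_zero hM hM', C M' * p + C M * p', ?_⟩
    simp only [Polynomial.map_add, Polynomial.map_mul, Polynomial.map_C, Int.coe_castRingHom, ← hp, ← hp', Int.cast_mul, map_mul]
    ring
  | monomial i c =>
    refine ⟨c.den, by exact_mod_cast c.den_ne_zero, monomial i c.num, ?_⟩
    rw [map_monomial, C_mul_monomial]
    congr 1
    rw [eq_intCast, Int.cast_natCast, mul_comm, Rat.mul_den_eq_num]

/-- **No exact relation.** -/
theorem cst_one {n : ℕ} (hn2 : 2 ≤ n) (h2 : MixOrder μ T 2) (hn : MixOrder μ T n)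
    (t : ℕ → Fin (n + 1) → ℕ) (e : ℕ → Fin (n + 1) → Bool) (ht0 : ∀ k, t k 0 = 0)
    (hgap : ∀ D : ℕ, ∀ᶠ k in atTop, ∀ i j, i < j → t k i + D ≤ t k j)
    (h : ∃ d : ℕ → Circle,
      Tendsto (fun k => ∫ x, ‖E T u (rel (t k) (e k)) x - d k‖ ∂μ) atTop (𝓝 0)) :
    Cst T u μ 1 := by
  classical
  -- the relations themselves are eventually constant
  have hrelC : ∀ᶠ k in atTop, Cst T u μ (rel (t k) (e k)) := by
    obtain ⟨d, hd⟩ := h
    filter_upwards [hd.eventually_lt_const zero_lt_one] with k hk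
    refine cst_of_norm_one hT hu ((φ_dichotomy hT hu hn2 hn t e ht0 hgap ⟨d, hd⟩ _).resolve_left
      fun h0 => ?_)
    have hle : ‖φ T u μ (rel (t k) (e k)) - (d k : ℂ)‖ ≤
        ∫ x, ‖E T u (rel (t k) (e k)) x - d k‖ ∂μ := by
      refine le_trans (le_of_eq ?_) (norm_integral_le_integral_norm _)
      rw [integral_sub (integrable_E hT hu _) (integrable_const _), integral_const, probReal_univ,
        one_smul]
      rfl
    rw [norm_eq_zero.1 h0, zero_sub, norm_neg, Circle.norm_coe] at hle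
    linarith
  let R : Ideal ℤ[X] :=
    { carrier := {p | Cst T u μ p}
      add_mem' := cst_add
      zero_mem' := cst_zero
      smul_mem' := fun p _ hq => cst_mul hT hq p }
  have good : ∀ D : ℕ, ∃ k, rel (t k) (e k) ∈ R ∧ ∀ i j, i < j → t k i + D ≤ t k j :=
    fun D => (hrelC.and (hgap D)).exists
  set ι : ℤ[X] →+* ℚ[X] := mapRingHom (Int.castRingHom ℚ)
  set I : Ideal ℚ[X] := R.map ι
  have hscale : ∀ r ∈ I, ∃ M : ℤ, M ≠ 0 ∧ ∃ p ∈ R, C (M : ℚ) * r = ι p := by
    intro r hr
    induction hr using Submodule.span_induction with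
    | mem r hr =>
      obtain ⟨p, hp, rfl⟩ := hr
      exact ⟨1, one_ne_zero, p, hp, by simp⟩
    | zero => exact ⟨1, one_ne_zero, 0, R.zero_mem, by simp⟩
    | add a b _ _ ha hb =>
      obtain ⟨M, hM, p, hp, he⟩ := ha
      obtain ⟨M', hM', p', hp', he'⟩ := hb
      refine ⟨M * M', mul_ne_zero hM hM', C M' * p + C M * p',
        R.add_mem (R.mul_mem_left _ hp) (R.mul_mem_left _ hp'), ?_⟩
      simp only [map_add, map_mul, ← he, ← he', Int.cast_mul]
      simp only [ι, coe_mapRingHom, Polynomial.map_C, Int.coe_castRingHom]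
      ring
    | smul a r _ hr =>
      obtain ⟨M, hM, p, hp, he⟩ := hr
      obtain ⟨M', hM', q, hq⟩ := exists_scale a
      refine ⟨M * M', mul_ne_zero hM hM', q * p, R.mul_mem_left _ hp, ?_⟩
      rw [smul_eq_mul, map_mul, ← he, show ι q = q.map (Int.castRingHom ℚ) from rfl, ← hq,
        Int.cast_mul, map_mul]
      ring
  obtain ⟨k₁, hk₁, hg₁⟩ := good 1
  obtain ⟨s₁, hmon, hdeg⟩ := monic_rel (t := t k₁) (e k₁) fun i j hij => by
    have := hg₁ i j hij
    omega
  set δ := C s₁ * rel (t k₁) (e k₁)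
  have hδR : δ ∈ R := R.mul_mem_left _ hk₁
  by_cases hI : I = ⊤
  · -- a multiple of `1`: the combinations take finitely many values
    obtain ⟨M, hM, p, hp, he⟩ := hscale 1 (hI ▸ Submodule.mem_top)
    have hCM : C M ∈ R := by
      have : ι (C M) = ι p := by
        rw [← he, mul_one]
        simp [ι]
      rwa [map_injective (Int.castRingHom ℚ) Int.cast_injective this]
    have : NeZero M.natAbs := ⟨Int.natAbs_ne_zero.2 hM⟩
    set d := t k₁ (Fin.last n)
    have hd1 : 1 ≤ d := by
      have := hg₁ 0 (Fin.last n) (Fin.pos_iff_ne_zero.2 (by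
        simp [Fin.ext_iff]; omega))
      omega
    obtain ⟨a, b, hab, heq⟩ := Finite.exists_ne_map_eq_of_infinite
      (fun a : ℕ => fun i : Fin d => (((X ^ a : ℤ[X]) %ₘ δ).coeff i : ZMod M.natAbs))
    wlog hlt : a < b generalizing a b
    · exact this b a hab.symm heq.symm (lt_of_le_of_ne (not_lt.1 hlt) hab.symm)
    have hdvd : C M ∣ (X ^ b : ℤ[X]) %ₘ δ - (X ^ a) %ₘ δ := by
      rw [C_dvd_iff_dvd_coeff]
      intro i
      by_cases hi : i < d
      · have := congrFun heq ⟨i, hi⟩
        rw [ZMod.intCast_eq_intCast_iff_dvd_sub] at this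
        rw [coeff_sub]
        exact Int.natAbs_dvd.1 this
      · have hne : δ ≠ 1 := fun h1 => by
          rw [h1, natDegree_one] at hdeg
          omega
        have hz : ∀ c : ℕ, ((X ^ c : ℤ[X]) %ₘ δ).coeff i = 0 := fun c =>
          coeff_eq_zero_of_natDegree_lt (lt_of_lt_of_le (natDegree_modByMonic_lt _ hmon hne)
            (by rw [hdeg]; omega))
        rw [coeff_sub, hz, hz, sub_zero]
        exact dvd_zero M
    have hmem : X ^ a * ((X ^ (b - a) - 1) * 1) ∈ R := by
      have e1 : X ^ a * ((X ^ (b - a) - 1) * (1 : ℤ[X])) = (((X ^ b : ℤ[X]) %ₘ δ - (X ^ a) %ₘ δ) +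
          δ * ((X ^ b : ℤ[X]) /ₘ δ - (X ^ a) /ₘ δ)) := by
        rw [mul_one, mul_sub, mul_one, ← pow_add, Nat.add_sub_cancel' hlt.le]
        linear_combination -(modByMonic_add_div (X ^ b : ℤ[X]) δ) +
          modByMonic_add_div (X ^ a : ℤ[X]) δ
      rw [e1]
      obtain ⟨w, hw⟩ := hdvd
      exact R.add_mem (hw ▸ R.mul_mem_right w hCM) (R.mul_mem_right _ hδR)
    exact cst_of_eigen hT hu h2 (by omega : 0 < b - a) (cst_of_X_pow hT hu a hmem)
  · -- otherwise a root of unity is a common root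
    exfalso
    set P := Submodule.IsPrincipal.generator I
    have hPmem : ∀ r, r ∈ I ↔ P ∣ r := fun r => Submodule.IsPrincipal.mem_iff_generator_dvd I
    have hPunit : ¬ IsUnit P := fun hu' =>
      hI (Ideal.eq_top_of_isUnit_mem _ ((hPmem P).2 dvd_rfl) hu')
    have hδI : P ∣ ι δ := (hPmem _).1 (Ideal.mem_map_of_mem ι hδR)
    have hδ0 : ι δ ≠ 0 := (hmon.map _).ne_zero
    have hP0 : P ≠ 0 := fun h0 => hδ0 (by simpa [h0] using hδI)
    have hroot : ∀ z : ℂ, aeval z P = 0 → ‖z‖ = 1 := fun z hz => by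
      refine norm_eq_one_of_root (n := n) fun D => ?_
      obtain ⟨k, hk, hg⟩ := good D
      refine ⟨t k, e k, ht0 k, hg, ?_⟩
      have h0 : aeval z (ι (rel (t k) (e k))) = 0 := by
        obtain ⟨w, hw⟩ := (hPmem _).1 (Ideal.mem_map_of_mem ι hk)
        rw [hw, map_mul, hz, zero_mul]
      rw [← h0]
      simp only [rel, map_sum, map_mul, map_pow, ι, coe_mapRingHom, map_X, aeval_X]
      refine Finset.sum_congr rfl fun i _ => ?_
      split_ifs <;> simp
    obtain ⟨z, hz⟩ : ∃ z : ℂ, aeval z P = 0 := IsAlgClosed.exists_aeval_eq_zero ℂ P fun hd =>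
      hPunit (isUnit_iff_degree_eq_zero.2 hd)
    have hzZ : IsIntegral ℤ z := ⟨δ, hmon, by
      obtain ⟨w, hw⟩ := hδI
      have : aeval z (ι δ) = 0 := by rw [hw, map_mul, hz, zero_mul]
      rwa [show ι δ = δ.map (algebraMap ℤ ℚ) from rfl, aeval_map_algebraMap, aeval_def] at this⟩
    have hzQ : IsIntegral ℚ z := hzZ.tower_top
    let F := IntermediateField.adjoin ℚ {z}
    have : FiniteDimensional ℚ F := IntermediateField.adjoin.finiteDimensional hzQ
    have : NumberField F := @NumberField.mk _ _ inferInstance this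
    set g : F := IntermediateField.AdjoinSimple.gen ℚ z
    have hg0 : aeval g P = 0 := by
      exact Subtype.ext ((aeval_algHom_apply F.val g P).symm.trans hz)
    have hgint : IsIntegral ℤ g :=
      (isIntegral_algHom_iff (F.val.restrictScalars ℤ) F.val.injective).1 hzZ
    obtain ⟨N, hN, hgN⟩ := NumberField.Embeddings.pow_eq_one_of_norm_eq_one F ℂ hgint fun ψ =>
      hroot _ (by
        have := aeval_algHom_apply (AlgHom.mk ψ (fun q => by simp) : F →ₐ[ℚ] ℂ) g P
        simpa [hg0] using this)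
    have hzN : z ^ N = 1 := by
      simpa [g, IntermediateField.AdjoinSimple.coe_gen] using congrArg F.val hgN
    obtain ⟨Q, hQ⟩ := minpoly.dvd ℚ z hz
    obtain ⟨S, hS⟩ := minpoly.dvd ℚ z (p := X ^ N - 1) (by simp [hzN])
    have hQI : Q ∉ I := fun hQI => by
      obtain ⟨w, hw⟩ := (hPmem Q).1 hQI
      refine minpoly.not_isUnit ℚ z (.of_mul_eq_one w ?_)
      have hQ0 : Q ≠ 0 := fun h0 => hP0 (by rw [hQ, h0, mul_zero])
      refine mul_right_cancel₀ hQ0 ?_
      rw [one_mul]
      calc minpoly ℚ z * w * Q = minpoly ℚ z * Q * w := by ring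
        _ = Q := by rw [← hQ]; exact hw.symm
    obtain ⟨M, hM, q, hq⟩ := exists_scale Q
    have hY : ι ((X ^ N - 1) * q) ∈ I := by
      rw [hPmem, map_mul, show ι q = q.map (Int.castRingHom ℚ) from rfl, ← hq]
      refine ⟨C (M : ℚ) * S, ?_⟩
      simp only [ι, coe_mapRingHom, Polynomial.map_sub, Polynomial.map_pow, map_X,
        Polynomial.map_one, hS, hQ]
      ring
    obtain ⟨M₂, hM₂, p, hp, he⟩ := hscale _ hY
    have hp' : (X ^ N - 1) * (C M₂ * q) ∈ R := by
      have : ι ((X ^ N - 1) * (C M₂ * q)) = ι p := by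
        rw [← he, map_mul, map_mul, map_mul]
        simp only [ι, coe_mapRingHom, Polynomial.map_C, Int.coe_castRingHom]
        ring
      rwa [map_injective (Int.castRingHom ℚ) Int.cast_injective this]
    have hq' : C M₂ * q ∈ R := cst_of_eigen hT hu h2 hN hp'
    apply hQI
    have hmem := Ideal.mem_map_of_mem ι hq'
    have e2 : Q = C ((M₂ : ℚ) * M)⁻¹ * ι (C M₂ * q) := by
      rw [map_mul, show ι q = q.map (Int.castRingHom ℚ) from rfl, ← hq]
      simp only [ι, coe_mapRingHom, Polynomial.map_C, Int.coe_castRingHom]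
      rw [← mul_assoc, ← mul_assoc, ← C_mul, ← C_mul, mul_assoc,
        inv_mul_cancel₀ (by simp [hM, hM₂]), C_1, one_mul]
    rw [e2]
    exact I.mul_mem_left _ hmem

end Vale.Agent.P102.ExactRelation

namespace Vale.Agent.P102.ExactRelation

variable {Ω : Type*} {T : Ω → Ω} {u : Ω → Circle}

/-- The relation polynomial, evaluated. -/
theorem E_rel {n : ℕ} (t : Fin n → ℕ) (e : Fin n → Bool) (x : Ω) :
    E T u (rel t e) x = ∏ i, ((u (T^[t i] x) ^ (if e i then 1 else -1 : ℤ) : Circle) : ℂ) := by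
  rw [E, ← mul_one (rel t e), L_rel_mul, toMul_sum]
  refine (map_prod Circle.coeHom _ _).trans (Finset.prod_congr rfl fun i _ => ?_)
  split_ifs <;> simp [L_one, L_neg] <;> rfl

variable [MeasurableSpace Ω] {μ : Measure Ω} [IsProbabilityMeasure μ]

/-- No exact relation, stated without polynomials. -/
theorem const_of_relation (hT : MeasurePreserving T μ μ)
    (hu : Measurable fun x => (u x : ℂ)) {n : ℕ} (hn2 : 2 ≤ n)
    (h2 : LocalFinite.MixOrder μ T 2) (hn : LocalFinite.MixOrder μ T n)
    (t : ℕ → Fin (n + 1) → ℕ) (e : ℕ → Fin (n + 1) → Bool) (c : ℕ → Circle)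
    (ht0 : ∀ k, t k 0 = 0)
    (hgap : ∀ D : ℕ, ∀ᶠ k in atTop, ∀ i j, i < j → t k i + D ≤ t k j)
    (h : Tendsto (fun k => ∫ x, ‖∏ i, ((u (T^[t k i] x) ^ (if e k i then 1 else -1 : ℤ) : Circle) :
        ℂ) - c k‖ ∂μ) atTop (𝓝 0)) :
    ∃ z : Circle, ∀ᵐ x ∂μ, u x = z := by
  obtain ⟨z, hz⟩ := cst_one hT hu hn2 h2 hn t e ht0 hgap ⟨c, by simpa only [E_rel] using h⟩
  refine ⟨Additive.toMul z, ?_⟩
  filter_upwards [hz] with x hx
  rw [← hx, L_one]
  rfl

end Vale.Agent.P102.ExactRelation
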