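import Mathlib

/-!
# P102: failures at the first order at which mixing could fail are locally finite

If `T` is mixing and mixing of order `n`, then for given sets and `ε` any window of configurations
of order `n + 1`, far enough out, contains boundedly many failures, the bound not depending on the
size of the window nor on the set at time `0`.
-/

open MeasureTheory Filter Topology Finset

namespace Vale.Agent.P102.LocalFinite

variable {Ω : Type*} [MeasurableSpace Ω] {μ : Measure Ω} {T : Ω → Ω}

/-- Mixing of order `n`, on sets. -/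
def MixOrder (μ : Measure Ω) (T : Ω → Ω) (n : ℕ) : Prop :=
  ∀ A : Fin n → Set Ω, (∀ i, MeasurableSet (A i)) → ∀ ε : ℝ, 0 < ε → ∃ D : ℕ,
    ∀ t : Fin n → ℕ, (∀ i j, i < j → t i + D ≤ t j) →
      |μ.real (⋂ i, T^[t i] ⁻¹' A i) - ∏ i, μ.real (A i)| < ε

/-- Finite combinations of indicators. -/
def Ind : Submodule ℝ (Ω → ℝ) :=
  Submodule.span ℝ {f | ∃ A : Set Ω, MeasurableSet A ∧ f = A.indicator fun _ => (1 : ℝ)}

/-- The defect of mixing for functions at given times. -/
noncomputable def dfc (μ : Measure Ω) (T : Ω → Ω) {n : ℕ} (g : Fin n → Ω → ℝ) (t : Fin n → ℕ) :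
    ℝ :=
  (∫ x, ∏ i, g i (T^[t i] x) ∂μ) - ∏ i, ∫ x, g i x ∂μ

theorem indicator_mem {A : Set Ω} (hA : MeasurableSet A) :
    (A.indicator fun _ => (1 : ℝ)) ∈ (Ind : Submodule ℝ (Ω → ℝ)) :=
  Submodule.subset_span ⟨A, hA, rfl⟩

theorem one_mem : (fun _ => (1 : ℝ)) ∈ (Ind : Submodule ℝ (Ω → ℝ)) := by
  simpa using indicator_mem (Ω := Ω) MeasurableSet.univ

theorem nice {g : Ω → ℝ} (hg : g ∈ (Ind : Submodule ℝ (Ω → ℝ))) :
    Measurable g ∧ ∃ C : ℝ, ∀ x, |g x| ≤ C := by
  induction hg using Submodule.span_induction with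
  | mem f hf =>
    obtain ⟨A, hA, rfl⟩ := hf
    exact ⟨measurable_const.indicator hA, 1, fun x => by by_cases h : x ∈ A <;> simp [h]⟩
  | zero => exact ⟨measurable_const, 0, fun x => by simp⟩
  | add f f' _ _ hf hf' =>
    obtain ⟨hm, C, hC⟩ := hf
    obtain ⟨hm', C', hC'⟩ := hf'
    exact ⟨hm.add hm', C + C', fun x => (abs_add_le _ _).trans (add_le_add (hC x) (hC' x))⟩
  | smul c f _ hf =>
    obtain ⟨hm, C, hC⟩ := hf
    exact ⟨hm.const_smul c, |c| * C, fun x => by
      rw [Pi.smul_apply, smul_eq_mul, abs_mul]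
      exact mul_le_mul_of_nonneg_left (hC x) (abs_nonneg c)⟩

variable [IsProbabilityMeasure μ] (hT : MeasurePreserving T μ μ)
include hT

theorem integrable_prod {ι : Type*} (s : Finset ι) {g : ι → Ω → ℝ}
    (hg : ∀ i ∈ s, g i ∈ (Ind : Submodule ℝ (Ω → ℝ))) (t : ι → ℕ) :
    Integrable (fun x => ∏ i ∈ s, g i (T^[t i] x)) μ := by
  classical
  choose C hC using fun i (hi : i ∈ s) => (nice (hg i hi)).2
  refine (integrable_const (∏ i ∈ s, if h : i ∈ s then |C i h| else 0)).mono'
    (Finset.measurable_prod s fun i hi =>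
      (nice (hg i hi)).1.comp ((hT.iterate _).measurable)).aestronglyMeasurable
    (ae_of_all _ fun x => ?_)
  rw [Real.norm_eq_abs, Finset.abs_prod]
  exact Finset.prod_le_prod (fun i _ => abs_nonneg _) fun i hi => by
    rw [dif_pos hi]; exact (hC i hi _).trans (le_abs_self _)

theorem integrable_ind {g : Ω → ℝ} (hg : g ∈ (Ind : Submodule ℝ (Ω → ℝ))) :
    Integrable g μ := by
  simpa using integrable_prod hT (Finset.univ : Finset (Fin 1)) (g := fun _ => g)
    (fun _ _ => hg) fun _ => 0

/-- `dfc` is additive in each function. -/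
theorem dfc_update_add {n : ℕ} {g : Fin n → Ω → ℝ} (hg : ∀ i, g i ∈ (Ind : Submodule ℝ (Ω → ℝ)))
    (j : Fin n) {u v : Ω → ℝ} (hu : u ∈ (Ind : Submodule ℝ (Ω → ℝ)))
    (hv : v ∈ (Ind : Submodule ℝ (Ω → ℝ))) (c : ℝ) (t : Fin n → ℕ) :
    dfc μ T (Function.update g j (u + c • v)) t =
      dfc μ T (Function.update g j u) t + c * dfc μ T (Function.update g j v) t := by
  classical
  have hp : ∀ (w : Ω → ℝ) x, ∏ i, Function.update g j w i (T^[t i] x) =
      w (T^[t j] x) * ∏ i ∈ univ.erase j, g i (T^[t i] x) := fun w x => by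
    rw [← mul_prod_erase univ _ (mem_univ j), Function.update_self]
    congr 1
    exact Finset.prod_congr rfl fun i hi => by rw [Function.update_of_ne (ne_of_mem_erase hi)]
  have hq : ∀ w : Ω → ℝ, ∏ i, ∫ x, Function.update g j w i x ∂μ =
      (∫ x, w x ∂μ) * ∏ i ∈ univ.erase j, ∫ x, g i x ∂μ := fun w => by
    rw [← mul_prod_erase univ _ (mem_univ j), Function.update_self]
    congr 1
    exact Finset.prod_congr rfl fun i hi => by rw [Function.update_of_ne (ne_of_mem_erase hi)]
  have hi : ∀ w : Ω → ℝ, w ∈ (Ind : Submodule ℝ (Ω → ℝ)) →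
      Integrable (fun x => w (T^[t j] x) * ∏ i ∈ univ.erase j, g i (T^[t i] x)) μ := fun w hw => by
    simp only [← hp]
    refine integrable_prod hT univ (fun i _ => ?_) t
    rcases eq_or_ne i j with rfl | hij
    · simpa using hw
    · simpa [hij] using hg i
  simp only [dfc, hp, hq, Pi.add_apply, Pi.smul_apply, smul_eq_mul, add_mul, mul_assoc]
  rw [integral_add (hi u hu) ((hi v hv).const_mul c), integral_const_mul,
    integral_add (integrable_ind hT hu) ((integrable_ind hT hv).const_mul c), integral_const_mul]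
  ring

omit [MeasurableSpace Ω] hT in
theorem prod_indicator {n : ℕ} (A : Fin n → Set Ω) (t : Fin n → ℕ) (x : Ω) :
    ∏ i, (A i).indicator (fun _ => (1 : ℝ)) (T^[t i] x) =
      (⋂ i, T^[t i] ⁻¹' A i).indicator (fun _ => 1) x := by
  by_cases h : x ∈ ⋂ i, T^[t i] ⁻¹' A i
  · rw [Set.indicator_of_mem h]
    exact Finset.prod_eq_one fun i _ => Set.indicator_of_mem (show T^[t i] x ∈ A i from Set.mem_iInter.1 h i) _
  · rw [Set.indicator_of_notMem h]
    simp only [Set.mem_iInter, not_forall] at h
    obtain ⟨i, hi⟩ := h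
    exact Finset.prod_eq_zero (mem_univ i) (Set.indicator_of_notMem (show T^[t i] x ∉ A i from hi) _)

omit [IsProbabilityMeasure μ] in
theorem dfc_indicator {n : ℕ} {A : Fin n → Set Ω} (hA : ∀ i, MeasurableSet (A i))
    (t : Fin n → ℕ) :
    dfc μ T (fun i => (A i).indicator fun _ => (1 : ℝ)) t =
      μ.real (⋂ i, T^[t i] ⁻¹' A i) - ∏ i, μ.real (A i) := by
  have h : ∀ s : Set Ω, MeasurableSet s →
      ∫ x, s.indicator (fun _ => (1 : ℝ)) x ∂μ = μ.real s := fun s hs => by
    rw [integral_indicator_const _ hs]; simp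
  simp only [dfc, prod_indicator, h _ (hA _),
    h _ (MeasurableSet.iInter fun i => (hT.iterate _).measurable (hA i))]

/-- Mixing of order `n` extends to combinations of indicators. -/
theorem mix_fun {n : ℕ} (hn : MixOrder μ T n) (g : Fin n → Ω → ℝ)
    (hg : ∀ i, g i ∈ (Ind : Submodule ℝ (Ω → ℝ))) (ε : ℝ) (hε : 0 < ε) :
    ∃ D : ℕ, ∀ t : Fin n → ℕ, (∀ i j, i < j → t i + D ≤ t j) → |dfc μ T g t| < ε := by
  classical
  suffices ∀ (s : Finset (Fin n)) (g : Fin n → Ω → ℝ),
      (∀ i, g i ∈ (Ind : Submodule ℝ (Ω → ℝ))) →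
      (∀ i ∉ s, ∃ A : Set Ω, MeasurableSet A ∧ g i = A.indicator fun _ => (1 : ℝ)) →
      ∀ ε : ℝ, 0 < ε → ∃ D : ℕ, ∀ t : Fin n → ℕ, (∀ i j, i < j → t i + D ≤ t j) →
        |dfc μ T g t| < ε by
    exact this univ g hg (fun i hi => absurd (mem_univ i) hi) ε hε
  intro s
  induction s using Finset.induction_on with
  | empty =>
    intro g _ hg ε hε
    choose A hA hgA using fun i => hg i (notMem_empty i)
    obtain ⟨D, hD⟩ := hn A hA ε hε
    refine ⟨D, fun t ht => ?_⟩
    rw [show g = fun i => (A i).indicator fun _ => (1 : ℝ) from funext hgA, dfc_indicator hT hA]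
    exact hD t ht
  | insert j s hj ih =>
    intro g hg hgs
    have key : ∀ w ∈ (Ind : Submodule ℝ (Ω → ℝ)), ∀ ε : ℝ, 0 < ε → ∃ D : ℕ,
        ∀ t : Fin n → ℕ, (∀ i k, i < k → t i + D ≤ t k) →
          |dfc μ T (Function.update g j w) t| < ε := by
      intro w hw
      induction hw using Submodule.span_induction with
      | mem w hw =>
        refine ih _ (fun i => ?_) fun i hi => ?_
        · rcases eq_or_ne i j with rfl | hij
          · obtain ⟨A, hA, rfl⟩ := hw
            simpa using indicator_mem hA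
          · simpa [hij] using hg i
        · rcases eq_or_ne i j with rfl | hij
          · simpa using hw
          · simpa [hij] using hgs i (by simp [hij, hi])
      | zero =>
        intro ε hε
        refine ⟨0, fun t _ => ?_⟩
        have h := dfc_update_add hT hg j (Ind : Submodule ℝ (Ω → ℝ)).zero_mem
          (Ind : Submodule ℝ (Ω → ℝ)).zero_mem 1 t
        simp only [smul_zero, add_zero, one_mul] at h
        have h0 : dfc μ T (Function.update g j 0) t = 0 := by linarith
        simpa [h0] using hε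
      | add u v hu hv ihu ihv =>
        intro ε hε
        obtain ⟨D, hD⟩ := ihu (ε / 2) (half_pos hε)
        obtain ⟨D', hD'⟩ := ihv (ε / 2) (half_pos hε)
        refine ⟨D + D', fun t ht => ?_⟩
        have h := dfc_update_add hT hg j hu hv 1 t
        simp only [one_smul, one_mul] at h
        rw [h]
        have h1 := hD t fun i k hik => by have := ht i k hik; omega
        have h2 := hD' t fun i k hik => by have := ht i k hik; omega
        exact (abs_add_le _ _).trans_lt (by linarith)
      | smul c u hu ihu =>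
        intro ε hε
        obtain ⟨D, hD⟩ := ihu (ε / (|c| + 1)) (by positivity)
        refine ⟨D, fun t ht => ?_⟩
        have h := dfc_update_add hT hg j (Ind : Submodule ℝ (Ω → ℝ)).zero_mem hu c t
        have h0 := dfc_update_add hT hg j (Ind : Submodule ℝ (Ω → ℝ)).zero_mem
          (Ind : Submodule ℝ (Ω → ℝ)).zero_mem 1 t
        simp only [smul_zero, add_zero, one_mul] at h0
        rw [zero_add] at h
        rw [h, show dfc μ T (Function.update g j 0) t = 0 by linarith, zero_add, abs_mul]
        have h1 := hD t ht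
        rw [lt_div_iff₀ (by positivity)] at h1
        nlinarith [abs_nonneg (dfc μ T (Function.update g j u) t)]
    intro ε hε
    simpa using key (g j) (hg j) ε hε

/-- With a constant one among `n + 1` functions, order `n` suffices. -/
theorem mix_fun_one {n : ℕ} (hn : MixOrder μ T n) (g : Fin (n + 1) → Ω → ℝ)
    (hg : ∀ i, g i ∈ (Ind : Submodule ℝ (Ω → ℝ))) (j : Fin (n + 1)) (hj : g j = fun _ => 1)
    (ε : ℝ) (hε : 0 < ε) :
    ∃ D : ℕ, ∀ t : Fin (n + 1) → ℕ, (∀ i k, i < k → t i + D ≤ t k) → |dfc μ T g t| < ε := by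
  obtain ⟨D, hD⟩ := mix_fun hT hn (fun i => g (j.succAbove i)) (fun i => hg _) ε hε
  refine ⟨D, fun t ht => ?_⟩
  have := hD (fun i => t (j.succAbove i)) fun i k hik => ht _ _ (Fin.strictMono_succAbove j hik)
  simpa [dfc, Fin.prod_univ_succAbove _ j, hj] using this

/-- Centring: order `n` reduces the defect at order `n + 1` to centred functions. -/
theorem centre {n : ℕ} (hn : MixOrder μ T n) {A : Fin (n + 1) → Set Ω}
    (hA : ∀ i, MeasurableSet (A i)) (ε : ℝ) (hε : 0 < ε) :
    ∃ D : ℕ, ∀ t : Fin (n + 1) → ℕ, (∀ i k, i < k → t i + D ≤ t k) →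
      |(μ.real (⋂ i, T^[t i] ⁻¹' A i) - ∏ i, μ.real (A i)) -
        dfc μ T (fun i x => (A i).indicator (fun _ => (1 : ℝ)) x - μ.real (A i)) t| < ε := by
  classical
  have hone : ∀ i, (fun x => (A i).indicator (fun _ => (1 : ℝ)) x - μ.real (A i)) ∈
      (Ind : Submodule ℝ (Ω → ℝ)) := fun i => by
    have e : (fun x => (A i).indicator (fun _ => (1 : ℝ)) x - μ.real (A i)) =
        (A i).indicator (fun _ => (1 : ℝ)) - μ.real (A i) • (fun _ => (1 : ℝ)) := by
      funext x; simp
    rw [e]
    exact Submodule.sub_mem _ (indicator_mem (hA i)) (Submodule.smul_mem _ _ one_mem)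
  let w : Finset (Fin (n + 1)) → Fin (n + 1) → Ω → ℝ := fun s i =>
    if i ∈ s then fun x => (A i).indicator (fun _ => (1 : ℝ)) x - μ.real (A i)
    else (A i).indicator fun _ => (1 : ℝ)
  have hw : ∀ s i, w s i ∈ (Ind : Submodule ℝ (Ω → ℝ)) := fun s i => by
    simp only [w]; split_ifs
    · exact hone i
    · exact indicator_mem (hA i)
  suffices ∀ (s : Finset (Fin (n + 1))) (ε : ℝ), 0 < ε → ∃ D : ℕ, ∀ t : Fin (n + 1) → ℕ,
      (∀ i k, i < k → t i + D ≤ t k) → |dfc μ T (w ∅) t - dfc μ T (w s) t| < ε by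
    obtain ⟨D, hD⟩ := this univ ε hε
    refine ⟨D, fun t ht => ?_⟩
    simpa [w, dfc_indicator hT hA] using hD t ht
  intro s
  induction s using Finset.induction_on with
  | empty => exact fun ε hε => ⟨0, fun t _ => by simpa using hε⟩
  | insert j s hj ih =>
    intro ε hε
    obtain ⟨D, hD⟩ := ih (ε / 2) (half_pos hε)
    obtain ⟨D', hD'⟩ := mix_fun_one hT hn (Function.update (w (insert j s)) j fun _ => 1)
      (fun i => by
        rcases eq_or_ne i j with rfl | hij
        · simpa using one_mem
        · simpa [hij] using hw _ i) j (by simp) (ε / 2) (half_pos hε)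
    refine ⟨D + D', fun t ht => ?_⟩
    have e1 : w s = Function.update (w (insert j s)) j
        ((fun x => (A j).indicator (fun _ => (1 : ℝ)) x - μ.real (A j)) +
          μ.real (A j) • fun _ => (1 : ℝ)) := by
      funext i x
      rcases eq_or_ne i j with rfl | hij
      · simp [w, hj]
      · simp [w, hij]
    have e2 : dfc μ T (w s) t = dfc μ T (w (insert j s)) t +
        μ.real (A j) * dfc μ T (Function.update (w (insert j s)) j fun _ => 1) t := by
      rw [e1, dfc_update_add hT (hw _) j (hone j) one_mem]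
      congr 2
      funext i x
      rcases eq_or_ne i j with rfl | hij
      · simp [w]
      · simp [hij]
    have h1 := hD t fun i k hik => by have := ht i k hik; omega
    have h2 := hD' t fun i k hik => by have := ht i k hik; omega
    have h3 : |μ.real (A j) * dfc μ T (Function.update (w (insert j s)) j fun _ => 1) t| ≤
        |dfc μ T (Function.update (w (insert j s)) j fun _ => 1) t| := by
      rw [abs_mul]
      refine mul_le_of_le_one_left (abs_nonneg _) ?_
      rw [abs_of_nonneg measureReal_nonneg]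
      exact measureReal_le_one
    rw [e2] at h1
    calc |dfc μ T (w ∅) t - dfc μ T (w (insert j s)) t|
        = |(dfc μ T (w ∅) t - (dfc μ T (w (insert j s)) t +
            μ.real (A j) * dfc μ T (Function.update (w (insert j s)) j fun _ => 1) t)) +
          μ.real (A j) * dfc μ T (Function.update (w (insert j s)) j fun _ => 1) t| := by
          congr 1; ring
      _ < ε := (abs_add_le _ _).trans_lt (by linarith)

/-- For a mixing and mixing of order `n` map, in any window far enough out the failures of order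
`n + 1` are boundedly many, uniformly in the window and in the set at time `0`. -/
theorem locally_finite {n : ℕ} (hpair : MixOrder μ T 2) (hn : MixOrder μ T n)
    (A : Fin n → Set Ω) (hA : ∀ i, MeasurableSet (A i)) (ε : ℝ) (hε : 0 < ε) :
    ∃ C : ℕ, ∀ A₀ : Set Ω, MeasurableSet A₀ → ∀ R : ℕ, ∃ D : ℕ,
      ∀ S : Finset (Fin (n + 1) → ℕ),
        (∀ t ∈ S, t 0 = 0 ∧ ∀ i j, i < j → t i + D ≤ t j) →
        (∀ t ∈ S, ∀ t' ∈ S, ∀ i, t i ≤ t' i + R) →
        (∀ t ∈ S, ε < |μ.real (⋂ i, T^[t i] ⁻¹' (Fin.cons A₀ A : Fin (n + 1) → Set Ω) i) -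
          ∏ i, μ.real ((Fin.cons A₀ A : Fin (n + 1) → Set Ω) i)|) →
        S.card ≤ C := by
  classical
  set δ := ε / 2 with hδ'
  have hδ : 0 < δ := half_pos hε
  let f : Fin n → Ω → ℝ := fun i x => (A i).indicator (fun _ => (1 : ℝ)) x - μ.real (A i)
  have hf1 : ∀ (B : Set Ω) x, |B.indicator (fun _ => (1 : ℝ)) x - μ.real B| ≤ 1 := fun B x => by
    have h0 : 0 ≤ μ.real B := measureReal_nonneg
    have h1 : μ.real B ≤ 1 := measureReal_le_one
    by_cases h : x ∈ B
    · rw [Set.indicator_of_mem h, abs_le]; constructor <;> linarith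
    · rw [Set.indicator_of_notMem h, abs_le]; constructor <;> linarith
  let G : Fin n → ℕ → Ω → ℝ := fun i d x => f i x * f i (T^[d] x)
  have hG : ∀ i d, G i d ∈ (Ind : Submodule ℝ (Ω → ℝ)) := fun i d => by
    have hp : MeasurableSet (T^[d] ⁻¹' A i) := (hT.iterate d).measurable (hA i)
    have e : G i d = ((A i ∩ T^[d] ⁻¹' A i).indicator fun _ => (1 : ℝ)) -
        μ.real (A i) • ((A i).indicator fun _ => (1 : ℝ)) -
        μ.real (A i) • ((T^[d] ⁻¹' A i).indicator fun _ => (1 : ℝ)) +
        μ.real (A i) ^ 2 • (fun _ => (1 : ℝ)) := by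
      funext x
      by_cases h1 : x ∈ A i <;> by_cases h2 : T^[d] x ∈ A i <;>
        simp [G, f, h1, h2] <;> ring
    rw [e]
    exact add_mem (sub_mem (sub_mem (indicator_mem ((hA i).inter hp))
      (Submodule.smul_mem _ _ (indicator_mem (hA i)))) (Submodule.smul_mem _ _ (indicator_mem hp)))
      (Submodule.smul_mem _ _ one_mem)
  have hG1 : ∀ i d, |∫ x, G i d x ∂μ| ≤ 1 := fun i d => by
    have h := norm_integral_le_of_norm_le_const (μ := μ) (C := 1) (f := G i d)
      (ae_of_all _ fun x => by
        rw [Real.norm_eq_abs, show G i d x = f i x * f i (T^[d] x) from rfl, abs_mul]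
        exact mul_le_one₀ (hf1 _ _) (abs_nonneg _) (hf1 _ _))
    simpa using h
  -- pair correlations tend to zero
  have hc : ∀ i, ∃ L : ℕ, ∀ d, L ≤ d → |∫ x, G i d x ∂μ| < δ ^ 2 / 4 := fun i => by
    have hfi : f i ∈ (Ind : Submodule ℝ (Ω → ℝ)) := by
      have e : f i = (A i).indicator (fun _ => (1 : ℝ)) - μ.real (A i) • (fun _ => (1 : ℝ)) := by
        funext x; simp [f]
      rw [e]
      exact sub_mem (indicator_mem (hA i)) (Submodule.smul_mem _ _ one_mem)
    obtain ⟨L, hL⟩ := mix_fun hT hpair ![f i, f i] (fun k => by fin_cases k <;> simpa using hfi)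
      (δ ^ 2 / 4) (by positivity)
    refine ⟨L, fun d hd => ?_⟩
    have h0 : ∫ x, f i x ∂μ = 0 := by
      simp only [f]
      rw [integral_sub ((integrable_const 1).indicator (hA i)) (integrable_const _),
        integral_indicator_const _ (hA i)]
      simp
    have := hL ![0, d] fun a b hab => by
      fin_cases a <;> fin_cases b <;> simp_all
    simpa [dfc, Fin.prod_univ_two, h0, G] using this
  choose L hL using hc
  set L₀ := univ.sup L
  refine ⟨⌊2 * ((2 * L₀ + 1) ^ (n + 1) : ℕ) / δ ^ 2⌋₊, fun A₀ hA₀ R => ?_⟩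
  have hB : ∀ i, MeasurableSet ((Fin.cons A₀ A : Fin (n + 1) → Set Ω) i) := fun i => by
    cases i using Fin.cases <;> simp [hA₀, hA]
  obtain ⟨D₁, hD₁⟩ := centre hT hn hB δ hδ
  choose D₂ hD₂ using fun Δ : Fin n → Fin (R + 1) => mix_fun hT hn (fun i => G i (Δ i))
    (fun i => hG _ _) (δ ^ 2 / 4) (by positivity)
  refine ⟨D₁ + univ.sup D₂, fun S hS hR hbad => ?_⟩
  let F : (Fin (n + 1) → ℕ) → Ω → ℝ := fun t x => ∏ i, f i (T^[t i.succ] x)
  let f₀ : Ω → ℝ := fun x => A₀.indicator (fun _ => (1 : ℝ)) x - μ.real A₀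
  have hf0 : ∫ x, f₀ x ∂μ = 0 := by
    simp only [f₀]
    rw [integral_sub ((integrable_const 1).indicator hA₀) (integrable_const _),
      integral_indicator_const _ hA₀]
    simp
  have hFm : ∀ t, Measurable (F t) := fun t => Finset.measurable_prod _ fun i _ =>
    ((measurable_const.indicator (hA i)).sub measurable_const).comp (hT.iterate _).measurable
  have hf0m : Measurable f₀ := (measurable_const.indicator hA₀).sub measurable_const
  have hF1 : ∀ t x, |F t x| ≤ 1 := fun t x => by
    rw [Finset.abs_prod]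
    exact Finset.prod_le_one (fun i _ => abs_nonneg _) fun i _ => hf1 _ _
  have hcor : ∀ t ∈ S, δ ≤ |∫ x, f₀ x * F t x ∂μ| := fun t ht => by
    obtain ⟨ht0, htg⟩ := hS t ht
    have h1 := hD₁ t fun i k hik => by have := htg i k hik; omega
    have e : dfc μ T (fun i x => ((Fin.cons A₀ A : Fin (n + 1) → Set Ω) i).indicator
        (fun _ => (1 : ℝ)) x - μ.real ((Fin.cons A₀ A : Fin (n + 1) → Set Ω) i)) t =
        ∫ x, f₀ x * F t x ∂μ := by
      have e1 : ∀ x, ∏ i, (((Fin.cons A₀ A : Fin (n + 1) → Set Ω) i).indicator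
          (fun _ => (1 : ℝ)) (T^[t i] x) - μ.real ((Fin.cons A₀ A : Fin (n + 1) → Set Ω) i)) =
          f₀ x * F t x := fun x => by
        simp [Fin.prod_univ_succ, ht0, f₀, F, f]
      have e2 : ∏ i, ∫ x, (((Fin.cons A₀ A : Fin (n + 1) → Set Ω) i).indicator
          (fun _ => (1 : ℝ)) x - μ.real ((Fin.cons A₀ A : Fin (n + 1) → Set Ω) i)) ∂μ = 0 := by
        refine Finset.prod_eq_zero (mem_univ 0) ?_
        simpa using hf0
      simp only [dfc, e1, e2, sub_zero]
    rw [e] at h1
    have h2 := (hbad t ht).le.trans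
      (abs_sub_abs_le_abs_sub _ (∫ x, f₀ x * F t x ∂μ) |> fun h => sub_le_iff_le_add.1 h)
    linarith
  -- two far apart configurations are almost orthogonal
  have hpairT : ∀ t ∈ S, ∀ t' ∈ S, |∫ x, F t x * F t' x ∂μ| ≤
      (if ∀ i, t' i ≤ t i + L₀ ∧ t i ≤ t' i + L₀ then 1 else 0) + δ ^ 2 / 2 := by
    intro t ht t' ht'
    have hd2 : 0 ≤ δ ^ 2 / 2 := by positivity
    split_ifs with hclose
    · have h := norm_integral_le_of_norm_le_const (μ := μ) (C := 1)
        (f := fun x => F t x * F t' x) (ae_of_all _ fun x => by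
          rw [Real.norm_eq_abs, abs_mul]
          exact mul_le_one₀ (hF1 _ _) (abs_nonneg _) (hF1 _ _))
      have h' : |∫ x, F t x * F t' x ∂μ| ≤ 1 := by simpa using h
      linarith
    · rw [zero_add]
      push Not at hclose
      obtain ⟨j, hj⟩ := hclose
      let Δ : Fin n → Fin (R + 1) := fun i =>
        ⟨max (t i.succ) (t' i.succ) - min (t i.succ) (t' i.succ), by
          have := hR t ht t' ht' i.succ
          have := hR t' ht' t ht i.succ
          omega⟩
      have hgap : ∀ i k : Fin n, i < k →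
          min (t i.succ) (t' i.succ) + D₂ Δ ≤ min (t k.succ) (t' k.succ) := fun i k hik => by
        have h1 := (hS t ht).2 _ _ (Fin.succ_lt_succ_iff.2 hik)
        have h2 := (hS t' ht').2 _ _ (Fin.succ_lt_succ_iff.2 hik)
        have h3 : D₂ Δ ≤ univ.sup D₂ := le_sup (f := D₂) (mem_univ Δ)
        omega
      have h := hD₂ Δ (fun i => min (t i.succ) (t' i.succ)) hgap
      have e : ∀ x, ∏ i, G i (Δ i) (T^[min (t i.succ) (t' i.succ)] x) = F t x * F t' x := fun x => by
        simp only [F, ← Finset.prod_mul_distrib]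
        refine Finset.prod_congr rfl fun i _ => ?_
        simp only [G, Δ, ← Function.iterate_add_apply]
        rcases le_total (t i.succ) (t' i.succ) with hle | hle
        · rw [max_eq_right hle, min_eq_left hle, Nat.sub_add_cancel hle]
        · rw [max_eq_left hle, min_eq_right hle, Nat.sub_add_cancel hle, mul_comm]
      simp only [dfc, e] at h
      obtain ⟨j', rfl⟩ : ∃ j' : Fin n, j = j'.succ := by
        refine Fin.eq_succ_of_ne_zero fun h0 => ?_
        subst h0
        have := (hS t ht).1
        have := (hS t' ht').1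
        have := hj
        omega
      have hL0 : L j' ≤ L₀ := le_sup (f := L) (mem_univ j')
      have hbig : L j' ≤ (Δ j' : ℕ) := by
        simp only [Δ]
        by_cases h1 : t' j'.succ ≤ t j'.succ + L₀
        · have := hj h1
          omega
        · omega
      have hsmall : |∏ i, ∫ x, G i (Δ i) x ∂μ| ≤ δ ^ 2 / 4 := by
        rw [← mul_prod_erase univ _ (mem_univ j'), abs_mul]
        refine (mul_le_of_le_one_right (abs_nonneg _) ?_).trans (hL j' _ hbig).le
        rw [Finset.abs_prod]
        exact Finset.prod_le_one (fun i _ => abs_nonneg _) fun i _ => hG1 _ _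
      have := abs_le.1 hsmall
      have := abs_lt.1 h
      exact abs_le.2 ⟨by linarith, by linarith⟩
  -- Bessel
  rcases S.eq_empty_or_nonempty with rfl | hne
  · simp
  set m : ℝ := (S.card : ℝ)
  have hm : 0 < m := by simp only [m]; exact_mod_cast hne.card_pos
  let c : (Fin (n + 1) → ℕ) → ℝ := fun t => if 0 ≤ ∫ x, f₀ x * F t x ∂μ then 1 else -1
  have hc1 : ∀ t, |c t| = 1 := fun t => by simp only [c]; split <;> simp
  let V : Ω → ℝ := fun x => ∑ t ∈ S, c t * F t x
  have ibd : ∀ {u : Ω → ℝ}, Measurable u → (∀ x, |u x| ≤ 1) → Integrable u μ := fun hu hb =>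
    (integrable_const (1 : ℝ)).mono' hu.aestronglyMeasurable (ae_of_all _ hb)
  have i1 : ∀ t, Integrable (fun x => f₀ x * F t x) μ := fun t =>
    ibd (hf0m.mul (hFm t)) fun x => by
      rw [abs_mul]; exact mul_le_one₀ (hf1 _ _) (abs_nonneg _) (hF1 _ _)
  have i2 : ∀ t t', Integrable (fun x => F t x * F t' x) μ := fun t t' =>
    ibd ((hFm t).mul (hFm t')) fun x => by
      rw [abs_mul]; exact mul_le_one₀ (hF1 _ _) (abs_nonneg _) (hF1 _ _)
  have eV : ∀ x, f₀ x * V x = ∑ t ∈ S, c t * (f₀ x * F t x) := fun x => by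
    simp only [V, mul_sum]
    exact sum_congr rfl fun t _ => by ring
  have eV2 : ∀ x, V x ^ 2 = ∑ t ∈ S, ∑ t' ∈ S, c t * c t' * (F t x * F t' x) := fun x => by
    simp only [V, sq, Finset.sum_mul_sum]
    exact sum_congr rfl fun t _ => sum_congr rfl fun t' _ => by ring
  have iV : Integrable (fun x => f₀ x * V x) μ := by
    simp only [eV]
    exact integrable_finsetSum _ fun t _ => (i1 t).const_mul _
  have iV2 : Integrable (fun x => V x ^ 2) μ := by
    simp only [eV2]
    exact integrable_finsetSum _ fun t _ => integrable_finsetSum _ fun t' _ => (i2 t t').const_mul _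
  have h1 : δ * m ≤ ∫ x, f₀ x * V x ∂μ := by
    simp only [eV]
    rw [integral_finsetSum _ fun t _ => (i1 t).const_mul _]
    calc δ * m = ∑ t ∈ S, δ := by simp [m, mul_comm]
      _ ≤ _ := sum_le_sum fun t ht => by
        rw [integral_const_mul]
        have := hcor t ht
        simp only [c]
        split
        · rw [abs_of_nonneg ‹_›] at this; linarith
        · rw [abs_of_neg (not_le.1 ‹_›)] at this; linarith
  set M : ℝ := (((2 * L₀ + 1) ^ (n + 1) : ℕ) : ℝ)
  have h2 : ∫ x, V x ^ 2 ∂μ ≤ m * M + m ^ 2 * (δ ^ 2 / 2) := by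
    simp only [eV2]
    rw [integral_finsetSum _ fun t _ => integrable_finsetSum _ fun t' _ => (i2 t t').const_mul _]
    calc _ ≤ ∑ t ∈ S, (M + m * (δ ^ 2 / 2)) := sum_le_sum fun t ht => by
          rw [integral_finsetSum _ fun t' _ => (i2 t t').const_mul _]
          calc _ ≤ ∑ t' ∈ S, ((if ∀ i, t' i ≤ t i + L₀ ∧ t i ≤ t' i + L₀ then (1 : ℝ) else 0)
                + δ ^ 2 / 2) := sum_le_sum fun t' ht' => by
                rw [integral_const_mul]
                refine (le_abs_self _).trans ?_
                rw [abs_mul, abs_mul, hc1, hc1, one_mul, one_mul]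
                exact hpairT t ht t' ht'
            _ ≤ _ := by
              rw [sum_add_distrib, sum_boole, sum_const, nsmul_eq_mul]
              refine add_le_add ?_ le_rfl
              simp only [M]
              gcongr
              refine (card_le_card (t := Fintype.piFinset fun i =>
                Finset.Icc (t i - L₀) (t i + L₀)) fun t' ht' => ?_).trans ?_
              · simp only [mem_filter] at ht'
                refine Fintype.mem_piFinset.2 fun i => mem_Icc.2 ?_
                have := ht'.2 i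
                omega
              · rw [Fintype.card_piFinset]
                refine (Finset.prod_le_prod' (g := fun _ => 2 * L₀ + 1) fun i _ => ?_).trans ?_
                · rw [Nat.card_Icc]; omega
                · simp
      _ = _ := by simp [m]; ring
  have h3 : ∫ x, f₀ x * V x ∂μ ≤ δ * m / 2 + (∫ x, V x ^ 2 ∂μ) / (2 * (δ * m)) := by
    calc _ ≤ ∫ x, (δ * m / 2 + V x ^ 2 / (2 * (δ * m))) ∂μ :=
          integral_mono iV ((integrable_const _).add (iV2.div_const _)) fun x => by
            have ht : 0 < δ * m := by positivity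
            simp only
            rw [div_add_div _ _ (by norm_num) (by positivity), le_div_iff₀ (by positivity)]
            have hu := hf1 A₀ x
            have : f₀ x * V x ≤ |V x| := by
              refine (le_abs_self _).trans ?_
              rw [abs_mul]
              exact mul_le_of_le_one_left (abs_nonneg _) hu
            nlinarith [sq_nonneg (|V x| - δ * m), sq_abs (V x)]
      _ = _ := by
          rw [integral_add (integrable_const _) (iV2.div_const _)]
          simp only [integral_const, probReal_univ, one_smul, integral_div]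
  have h4 : δ * m / 2 ≤ (∫ x, V x ^ 2 ∂μ) / (2 * (δ * m)) := by linarith
  rw [le_div_iff₀ (by positivity)] at h4
  refine Nat.le_floor ?_
  rw [le_div_iff₀ (by positivity)]
  nlinarith

end Vale.Agent.P102.LocalFinite
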