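import Vale.Agent.P102.LocalFinite

/-!
# P102: mixing of order `n` for bounded complex functions
-/

open MeasureTheory Filter Topology Finset Function

namespace Vale.Agent.P102.MixBounded

open LocalFinite (MixOrder)

variable {Ω : Type*} [MeasurableSpace Ω] {μ : Measure Ω} {T : Ω → Ω} {n : ℕ}

/-- The defect of mixing for complex functions at given times. -/
noncomputable def cdfc (μ : Measure Ω) (T : Ω → Ω) (g : Fin n → Ω → ℂ) (t : Fin n → ℕ) : ℂ :=
  (∫ x, ∏ i, g i (T^[t i] x) ∂μ) - ∏ i, ∫ x, g i x ∂μ

/-- `g` satisfies mixing of order `n`. -/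
def Good (μ : Measure Ω) (T : Ω → Ω) (g : Fin n → Ω → ℂ) : Prop :=
  ∀ ε : ℝ, 0 < ε → ∃ D : ℕ, ∀ t : Fin n → ℕ, (∀ i j, i < j → t i + D ≤ t j) → ‖cdfc μ T g t‖ < ε

/-- A bounded measurable function. -/
def Bdd1 (w : Ω → ℂ) : Prop := Measurable w ∧ ∀ x, ‖w x‖ ≤ 1

variable [IsProbabilityMeasure μ] (hT : MeasurePreserving T μ μ)

omit [MeasurableSpace Ω] in
theorem prod_update {g : Fin n → Ω → ℂ} (j : Fin n) (w : Ω → ℂ) (y : Fin n → Ω) :
    ∏ i, update g j w i (y i) = w (y j) * ∏ i ∈ univ.erase j, g i (y i) := by
  classical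
  rw [← mul_prod_erase univ _ (mem_univ j), update_self]
  congr 1
  exact Finset.prod_congr rfl fun i hi => by rw [update_of_ne (ne_of_mem_erase hi)]

theorem int_update {g : Fin n → Ω → ℂ} (j : Fin n) (w : Ω → ℂ)
    (ν : Measure Ω) :
    ∏ i, ∫ x, update g j w i x ∂ν = (∫ x, w x ∂ν) * ∏ i ∈ univ.erase j, ∫ x, g i x ∂ν := by
  classical
  rw [← mul_prod_erase univ _ (mem_univ j), update_self]
  congr 1
  exact Finset.prod_congr rfl fun i hi => by rw [update_of_ne (ne_of_mem_erase hi)]

include hT

omit [IsProbabilityMeasure μ] in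
theorem integrable_slot {g : Fin n → Ω → ℂ} (hg : ∀ i, Bdd1 (g i)) (j : Fin n) {w : Ω → ℂ}
    (hw : Integrable w μ) (t : Fin n → ℕ) :
    Integrable (fun x => w (T^[t j] x) * ∏ i ∈ univ.erase j, g i (T^[t i] x)) μ := by
  refine ((hT.iterate _).integrable_comp_of_integrable hw).mul_bdd (c := 1) ?_
    (ae_of_all _ fun x => ?_)
  · exact (Finset.measurable_prod _ fun i _ =>
      (hg i).1.comp (hT.iterate _).measurable).aestronglyMeasurable
  · rw [norm_prod]
    exact Finset.prod_le_one (fun i _ => norm_nonneg _) fun i _ => (hg i).2 _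

omit [IsProbabilityMeasure μ] in
theorem cdfc_update {g : Fin n → Ω → ℂ} (hg : ∀ i, Bdd1 (g i)) (j : Fin n) {u v : Ω → ℂ}
    (hu : Integrable u μ) (hv : Integrable v μ) (c : ℂ) (t : Fin n → ℕ) :
    cdfc μ T (update g j (u + c • v)) t =
      cdfc μ T (update g j u) t + c * cdfc μ T (update g j v) t := by
  simp only [cdfc, prod_update, int_update j _ μ, Pi.add_apply, Pi.smul_apply, smul_eq_mul,
    add_mul, mul_assoc]
  rw [integral_add (integrable_slot hT hg j hu t) ((integrable_slot hT hg j hv t).const_mul c),
    integral_const_mul, integral_add hu (hv.const_mul c), integral_const_mul]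
  ring

theorem norm_cdfc_le {g : Fin n → Ω → ℂ} (hg : ∀ i, Bdd1 (g i)) (j : Fin n) {w : Ω → ℂ}
    (hw : Integrable w μ) (t : Fin n → ℕ) :
    ‖cdfc μ T (update g j w) t‖ ≤ 2 * ∫ x, ‖w x‖ ∂μ := by
  simp only [cdfc, prod_update, int_update j _ μ]
  refine (norm_sub_le _ _).trans ?_
  have h1 : ‖∫ x, w (T^[t j] x) * ∏ i ∈ univ.erase j, g i (T^[t i] x) ∂μ‖ ≤ ∫ x, ‖w x‖ ∂μ := by
    refine (norm_integral_le_of_norm_le ((hT.iterate (t j)).integrable_comp_of_integrable hw.norm)
      (ae_of_all _ fun x => ?_)).trans (le_of_eq ?_)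
    · rw [norm_mul, norm_prod]
      exact mul_le_of_le_one_right (norm_nonneg _)
        (Finset.prod_le_one (fun i _ => norm_nonneg _) fun i _ => (hg i).2 _)
    · have h : ∫ y, ‖w y‖ ∂(μ.map T^[t j]) = ∫ x, ‖w (T^[t j] x)‖ ∂μ :=
        integral_map (hT.iterate _).measurable.aemeasurable
          (by rw [(hT.iterate _).map_eq]; exact hw.norm.aestronglyMeasurable)
      rw [(hT.iterate _).map_eq] at h
      exact h.symm
  have h2 : ‖(∫ x, w x ∂μ) * ∏ i ∈ univ.erase j, ∫ x, g i x ∂μ‖ ≤ ∫ x, ‖w x‖ ∂μ := by
    rw [norm_mul, norm_prod]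
    refine (mul_le_of_le_one_right (norm_nonneg _) (Finset.prod_le_one (fun i _ => norm_nonneg _)
      fun i _ => ?_)).trans (norm_integral_le_integral_norm _)
    simpa using norm_integral_le_of_norm_le_const (μ := μ) (ae_of_all _ (hg i).2)
  linarith

omit [IsProbabilityMeasure μ] in
theorem good_indicators (hn : MixOrder μ T n) {A : Fin n → Set Ω} (hA : ∀ i, MeasurableSet (A i)) :
    Good μ T fun i => (A i).indicator fun _ => (1 : ℂ) := by
  intro ε hε
  obtain ⟨D, hD⟩ := hn A hA ε hε
  refine ⟨D, fun t ht => ?_⟩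
  have e : ∀ x, ∏ i, (A i).indicator (fun _ => (1 : ℂ)) (T^[t i] x) =
      (((⋂ i, T^[t i] ⁻¹' A i).indicator (fun _ => (1 : ℝ)) x : ℝ) : ℂ) := fun x => by
    rw [← LocalFinite.prod_indicator A t x, Complex.ofReal_prod]
    refine Finset.prod_congr rfl fun i _ => ?_
    by_cases h : T^[t i] x ∈ A i <;> simp [h]
  have e2 : ∀ s : Set Ω, MeasurableSet s →
      ∫ x, s.indicator (fun _ => (1 : ℂ)) x ∂μ = (μ.real s : ℂ) := fun s hs => by
    rw [integral_indicator_const _ hs]; simp
  simp only [cdfc, e, integral_complex_ofReal, e2 _ (hA _)]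
  rw [integral_indicator_const _ (MeasurableSet.iInter fun i => (hT.iterate _).measurable (hA i)),
    smul_eq_mul, mul_one, ← Complex.ofReal_prod, ← Complex.ofReal_sub, Complex.norm_real]
  exact hD t ht

/-- Mixing of order `n` holds for bounded measurable complex functions. -/
theorem good_of_bdd (hn : MixOrder μ T n) (g : Fin n → Ω → ℂ) (hg : ∀ i, Bdd1 (g i)) :
    Good μ T g := by
  classical
  suffices ∀ (s : Finset (Fin n)) (g : Fin n → Ω → ℂ), (∀ i, Bdd1 (g i)) →
      (∀ i ∉ s, ∃ A : Set Ω, MeasurableSet A ∧ g i = A.indicator fun _ => (1 : ℂ)) →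
      Good μ T g from this univ g hg fun i hi => absurd (mem_univ i) hi
  intro s
  induction s using Finset.induction_on with
  | empty =>
    intro g _ hg
    choose A hA hgA using fun i => hg i (notMem_empty i)
    rw [show g = fun i => (A i).indicator fun _ => (1 : ℂ) from funext hgA]
    exact good_indicators hT hn hA
  | insert j s hj ih =>
    intro g hg hgs
    have key : ∀ w : Ω → ℂ, Integrable w μ → Good μ T (update g j w) := by
      have scale : ∀ {u v : Ω → ℂ}, Integrable u μ → Integrable v μ → ∀ c : ℂ,
          Good μ T (update g j u) → Good μ T (update g j v) →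
          Good μ T (update g j (u + c • v)) := fun {u v} hu hv c gu gv ε hε => by
        obtain ⟨D, hD⟩ := gu (ε / 2) (half_pos hε)
        obtain ⟨D', hD'⟩ := gv (ε / (2 * (‖c‖ + 1))) (by positivity)
        refine ⟨D + D', fun t ht => ?_⟩
        rw [cdfc_update hT hg j hu hv]
        have h1 := hD t fun i k hik => by have := ht i k hik; omega
        have h2 := hD' t fun i k hik => by have := ht i k hik; omega
        rw [lt_div_iff₀ (by positivity)] at h2
        refine (norm_add_le _ _).trans_lt ?_
        rw [norm_mul]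
        nlinarith [norm_nonneg (cdfc μ T (update g j v) t)]
      have zero : Good μ T (update g j 0) := fun ε hε => ⟨0, fun t _ => by
        have h := cdfc_update hT hg j (integrable_zero _ _ μ) (integrable_zero _ _ μ) 1 t
        rw [one_smul, add_zero, one_mul, left_eq_add] at h
        simpa [h] using hε⟩
      intro w hw
      refine Integrable.induction (fun w => Good μ T (update g j w)) ?_ ?_ ?_ ?_ hw
      · intro c A hA _
        have hi : Integrable (A.indicator fun _ => (1 : ℂ)) μ :=
          (integrable_const 1).indicator hA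
        have h1 : Good μ T (update g j (A.indicator fun _ => (1 : ℂ))) := by
          refine ih _ (fun i => ?_) fun i hi => ?_
          · rcases eq_or_ne i j with rfl | hij
            · simp only [update_self]
              exact ⟨measurable_const.indicator hA,
                fun x => by by_cases h : x ∈ A <;> simp [h]⟩
            · simpa [hij] using hg i
          · rcases eq_or_ne i j with rfl | hij
            · exact ⟨A, hA, by simp⟩
            · simpa [hij] using hgs i (by simp [hij, hi])
        have := scale (integrable_zero _ _ μ) hi c zero h1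
        rwa [zero_add, show c • A.indicator (fun _ => (1 : ℂ)) = A.indicator fun _ => c from by
          funext x; by_cases h : x ∈ A <;> simp [h]] at this
      · intro u v _ hu hv gu gv
        simpa using scale hu hv 1 gu gv
      · refine isClosed_of_closure_subset fun w hw ε hε => ?_
        obtain ⟨v, hv, hd⟩ := Metric.mem_closure_iff.1 hw (ε / 5) (by positivity)
        obtain ⟨D, hD⟩ := hv (ε / 2) (half_pos hε)
        refine ⟨D, fun t ht => ?_⟩
        have h := cdfc_update hT hg j (L1.integrable_coeFn v)
          ((L1.integrable_coeFn w).sub (L1.integrable_coeFn v)) 1 t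
        rw [one_smul, add_sub_cancel, one_mul] at h
        rw [h]
        have h1 := hD t ht
        have h2 := norm_cdfc_le hT hg j ((L1.integrable_coeFn w).sub (L1.integrable_coeFn v)) t
        have h3 : ∫ x, ‖(⇑w - ⇑v) x‖ ∂μ = ‖w - v‖ := by
          rw [L1.norm_eq_integral_norm]
          refine integral_congr_ae ?_
          filter_upwards [Lp.coeFn_sub w v] with x hx
          rw [hx]
        rw [dist_eq_norm] at hd
        exact (norm_add_le _ _).trans_lt (by linarith)
      · intro u v huv hu gu ε hε
        obtain ⟨D, hD⟩ := gu ε hε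
        refine ⟨D, fun t ht => ?_⟩
        have e : cdfc μ T (update g j v) t = cdfc μ T (update g j u) t := by
          simp only [cdfc, prod_update, int_update j _ μ]
          congr 1
          · refine integral_congr_ae ?_
            filter_upwards [(hT.iterate (t j)).quasiMeasurePreserving.ae_eq_comp huv] with x hx
            simp only [comp_apply] at hx
            rw [hx]
          · rw [integral_congr_ae huv]
        rw [e]
        exact hD t ht
    have hint : Integrable (g j) μ :=
      (integrable_const (1 : ℝ)).mono' (hg j).1.aestronglyMeasurable (ae_of_all _ (hg j).2)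
    simpa using key (g j) hint

end Vale.Agent.P102.MixBounded
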